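import Vale.Agent.N352.RP.Vb

/-!
# N352, block Rn: the boosts, growth of polynomials along the boosts
-/

set_option linter.all false

open MeasureTheory Filter Topology
open scoped ComplexConjugate

namespace Vale.Agent.N352.RP

open Vale.Agent.N352.Rn

open Vale.Agent.P352 Vale.Agent.P352.GF Vale.Agent.P352.BW Vale.Agent.P352.H246
open Vale.Agent.P352.H496 Vale.Agent.P352.H755 Vale.Agent.P352.H15
open Vale.Agent.P352X Vale.Agent.P352X.EB
open Vale.Agent.P352X.EG.Bws (lor bq_bq bq_inv)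
open UniformSpace (Completion)
open EP (Cf Sh)
open Real (exp)

noncomputable section

variable {D : Type*} [NormedAddCommGroup D] [InnerProductSpace ℂ D]

variable (c : Cf D)

theorem gb_coe (t : ℝ) (w : D) : (gb c t).U c w = (c.Q.U 1 (T.bq va vb t) 0 w : D) :=
  Grp.coe one_pos (lor t) 0 w

theorem gb_mul (s t : ℝ) : ∃ γ, (γ = 1 ∨ γ = c.Γ) ∧
    (gb c s).U c * (gb c t).U c = γ * (gb c (s + t)).U c := by
  have e : EP.SGx.U0 c ((gb c s).toSg.mul (gb c t).toSg) = (gb c (s + t)).U c := by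
    show Ug c.Q (1 * 1) (fun m => sim 1 (T.bq va vb s) 0 (T.bq va vb t m)) (sim 1 _ 0 0) = Ug _ _ _ _
    rw [one_mul, T.s_bq_mul null_va null_vb md_ab, Grp.sim_zero]
    rfl
  rcases EP.SGx.mul0 c (gb c s).toSg (gb c t).toSg with h | h <;> rw [e] at h
  exacts [⟨1, .inl rfl, h.trans (one_mul _).symm⟩, ⟨_, .inr rfl, h⟩]

theorem gb_sq (s t : ℝ) : (gb c s).U c * (gb c t).U c * ((gb c s).U c * (gb c t).U c) =
    (gb c (s + t)).U c * (gb c (s + t)).U c := by
  obtain ⟨γ, rfl | rfl, h⟩ := gb_mul c s t <;> rw [h]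
  · rw [one_mul]
  · rw [mul_assoc, ← mul_assoc _ c.Γ, ← EP.SGx.gU, mul_assoc, EP.SGx.gg]

theorem gb_comm (s t : ℝ) : (gb c s).U c * (gb c t).U c = (gb c t).U c * (gb c s).U c := by
  have k : ∀ a, (gb c a).U c * ((gb c a).U c * (gb c t).U c) =
      (gb c t).U c * ((gb c a).U c * (gb c a).U c) := fun a => by
    obtain ⟨γ, p, h⟩ := gb_mul c a t
    obtain ⟨γ', p', h'⟩ := gb_mul c t a
    rw [add_comm] at h'
    have g := fun X => EP.SGx.gg c X
    have u : ∀ b X, (gb c b).U c * (c.Γ * X) = c.Γ * ((gb c b).U c * X) := fun b X => by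
      rw [← mul_assoc, ← EP.SGx.gU, mul_assoc]
    have e : (gb c a).U c * (gb c t).U c = (gb c t).U c * (gb c a).U c ∨
        (gb c a).U c * (gb c t).U c = c.Γ * ((gb c t).U c * (gb c a).U c) := by
      rw [h, h']
      rcases p with rfl | rfl <;> rcases p' with rfl | rfl <;> simp only [one_mul, g, true_or, or_true]
    rcases e with e | e
    · rw [e, ← mul_assoc, e, mul_assoc]
    · rw [e, u, ← mul_assoc ((gb c a).U c), e, mul_assoc, g, mul_assoc]
  obtain ⟨γ, p, h⟩ := gb_mul c (s / 2) (s / 2)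
  have := k (s / 2)
  rw [← mul_assoc, h, add_halves] at this
  rcases p with rfl | rfl
  · simpa only [one_mul] using this
  · rw [← mul_assoc, ← EP.SGx.gU, mul_assoc, mul_assoc] at this
    simpa only [EP.SGx.gg] using congrArg (c.Γ * ·) this

theorem Vb_add (s t : ℝ) : Vb c (s + t) = Vb c s * Vb c t := by
  rw [Vb, Vb, Vb, add_div, ← gb_sq, mul_assoc, mul_assoc, ← mul_assoc ((gb c (t / 2)).U c),
    ← gb_comm, mul_assoc]

theorem gb_zero : (gb c 0).U c = 1 := by
  show Ug c.Q 1 (T.bq va vb 0) 0 = 1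
  rw [T.s_bq_zero]
  exact Grp.ug_one

/-- **the boosts form a one parameter group** -/
theorem u0 : U1 (Vb c) := by
  have i := fun t => ContinuousLinearMap.inner_map_map_of_mem_unitary (Vb_uni c t)
  have n := fun t => ContinuousLinearMap.norm_map_of_mem_unitary (Vb_uni c t)
  have n' := fun t => ContinuousLinearMap.norm_map_of_mem_unitary (EP.SGx.uni (gb c t))
  have z : Vb c 0 = 1 := by rw [Vb, zero_div, gb_zero, one_mul]
  have c0 : ∀ w : D, Tendsto (fun t => ‖(gb c t).U c w - w‖) (𝓝 0) (𝓝 0) := fun w => by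
    have d := c.hN.der (fun _ => 1) (T.bq va vb) (fun _ => 0) (fun x n => deriv
      (fun e => sim 1 (T.bq va vb e) 0 x n) 0) w rfl (T.s_bq_zero _ _) rfl
      (fun e => ⟨one_pos, lor e⟩) fun n x => DifferentiableAt.hasDerivAt (by
        simp only [T.bq, sim_bst, Pi.add_apply, Pi.smul_apply, smul_eq_mul]
        fun_prop)
    have := ((Completion.continuous_coe D).tendsto _).comp d.continuousAt.tendsto
    simp only [Function.comp_def, ← gb_coe, gb_zero, ContinuousLinearMap.one_apply] at this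
    exact tendsto_iff_norm_sub_tendsto_zero.1 this
  have c1 : ∀ x, Tendsto (fun t => ‖Vb c t x - x‖) (𝓝 0) (𝓝 0) := fun x => by
    refine Metric.tendsto_nhds.2 fun ε hε => ?_
    obtain ⟨w, hw⟩ := Completion.denseRange_coe.exists_dist_lt x (show 0 < ε / 4 by positivity)
    have h2 : Tendsto (fun t : ℝ => t / 2) (𝓝 0) (𝓝 0) := by
      simpa using (continuous_id.div_const (2 : ℝ)).tendsto 0
    filter_upwards [((c0 w).comp h2).eventually (gt_mem_nhds (show 0 < ε / 4 by positivity))]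
      with t ht
    have e : Vb c t x - x = Vb c t (x - w) + (gb c (t / 2)).U c ((gb c (t / 2)).U c w - w) +
        ((gb c (t / 2)).U c w - w) - (x - w) := by
      simp only [map_sub, Vb, ContinuousLinearMap.mul_apply]
      abel
    rw [dist_eq_norm] at hw
    rw [dist_zero_right, norm_norm, e]
    refine (norm_sub_le _ _).trans_lt ((add_le_add norm_add₃_le le_rfl).trans_lt ?_)
    rw [n, n']
    have : ‖(gb c (t / 2)).U c w - w‖ < ε / 4 := ht
    linarith
  refine ⟨i, fun s t x => by rw [Vb_add]; rfl, fun x => by rw [z]; rfl, fun x =>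
    continuous_iff_continuousAt.2 fun s => tendsto_iff_norm_sub_tendsto_zero.2 ?_⟩
  have h2 : Tendsto (fun t : ℝ => t - s) (𝓝 s) (𝓝 0) := by
    simpa using (continuous_sub_right s).tendsto s
  refine ((c1 x).comp h2).congr fun t => ?_
  rw [Function.comp, ← n s, map_sub, ← ContinuousLinearMap.mul_apply, ← Vb_add, add_sub_cancel]

theorem u1 (m : MfAll c.Q) : U1 (Vb c) := u0 c

/-! ## growth -/

/-- exponential growth -/
def Ex (a : ℝ → ℝ) : Prop := ∃ C r : ℝ, 0 ≤ C ∧ 0 ≤ r ∧ ∀ s, a s ≤ C * exp (r * |s|)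

namespace Ex

variable {a b : ℝ → ℝ}

theorem of_le (h : Ex b) (e : ∀ s, a s ≤ b s) : Ex a :=
  let ⟨C, r, p, q, k⟩ := h
  ⟨C, r, p, q, fun s => (e s).trans (k s)⟩

theorem const (x : ℝ) : Ex fun _ => x := ⟨|x|, 0, abs_nonneg _, le_rfl, fun _ => by
  simpa using le_abs_self x⟩

theorem add (h : Ex a) (h' : Ex b) : Ex fun s => a s + b s := by
  obtain ⟨C, r, hC, hr, k⟩ := h
  obtain ⟨C', r', hC', hr', k'⟩ := h'
  refine ⟨C + C', r + r', by positivity, by positivity, fun s => ?_⟩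
  rw [add_mul C]
  refine add_le_add ((k s).trans ?_) ((k' s).trans ?_) <;> gcongr <;> linarith

theorem mul (h : Ex a) (h' : Ex b) (p : ∀ s, 0 ≤ b s) : Ex fun s => a s * b s := by
  obtain ⟨C, r, hC, hr, k⟩ := h
  obtain ⟨C', r', hC', hr', k'⟩ := h'
  refine ⟨C * C', r + r', by positivity, by positivity, fun s =>
    (mul_le_mul (k s) (k' s) (p s) (by positivity)).trans_eq ?_⟩
  rw [add_mul, Real.exp_add]
  ring

theorem sum {ι : Type*} (S : Finset ι) {a : ι → ℝ → ℝ} (h : ∀ i, Ex (a i)) :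
    Ex fun s => ∑ i ∈ S, a i s := by
  classical
  induction S using Finset.induction_on with
  | empty => exact const _
  | insert i S hi k => simpa only [Finset.sum_insert hi] using (h i).add k

theorem pow (h : Ex a) (p : ∀ s, 0 ≤ a s) (n : ℕ) : Ex fun s => a s ^ n := by
  induction n with
  | zero => simpa only [pow_zero] using const 1
  | succ n k => simpa only [pow_succ] using k.mul h p

end Ex

/-- the boosts grow exponentially -/
theorem bq_le (t : ℝ) (x : V) : ‖sim 1 (T.bq va vb t) 0 x‖ ≤ 9 * exp (7 * |t|) * ‖x‖ := by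
  have e : ∀ y : ℝ, |y| ≤ 7 * |t| → |exp y - 1| ≤ 2 * exp (7 * |t|) := fun y hy =>
    (abs_sub _ _).trans (by
      rw [abs_of_pos (Real.exp_pos _), abs_one]
      linarith [Real.exp_le_exp.2 ((le_abs_self y).trans hy),
        Real.one_le_exp (show 0 ≤ 7 * |t| by positivity)])
  have p : |2 * Real.pi * t| ≤ 7 * |t| := by
    rw [abs_mul, abs_of_pos Real.two_pi_pos]
    exact mul_le_mul_of_nonneg_right (by linarith [Real.pi_lt_d2]) (abs_nonneg _)
  have n1 : ‖va‖ ≤ 1 := (pi_norm_le_iff_of_nonneg zero_le_one).2 fun i => by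
    fin_cases i <;> simp [va]
  have n2 : ‖vb‖ ≤ 1 := (pi_norm_le_iff_of_nonneg zero_le_one).2 fun i => by
    fin_cases i <;> simp [vb] <;> norm_num
  have a1 := e _ p
  have a2 := e _ ((abs_neg _).trans_le p)
  have o := Real.one_le_exp (show 0 ≤ 7 * |t| by positivity)
  rw [T.bq, sim_bst]
  refine norm_add₃_le.trans ?_
  rw [norm_smul, norm_smul, Real.norm_eq_abs, Real.norm_eq_abs, abs_mul, abs_mul, md_va, md_vb]
  have b1 := mul_le_mul (mul_le_mul a2 (abs_al_le (z := x)) (abs_nonneg _) (by positivity)) n1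
    (norm_nonneg _) (by positivity)
  have b2 := mul_le_mul (mul_le_mul a1 (abs_be_le (z := x)) (abs_nonneg _) (by positivity)) n2
    (norm_nonneg _) (by positivity)
  nlinarith [norm_nonneg x]

theorem ex_sn (k : ℕ) (g : Sch) : Ex fun s => sn k (Grp.simS one_pos (lor s) 0 g) := by
  have m : Ex fun s => 9 * exp (7 * |s|) := ⟨9, 7, by norm_num, by norm_num, fun _ => le_rfl⟩
  have p : ∀ s : ℝ, 1 ≤ 9 * exp (7 * |s|) := fun s => by
    linarith [Real.one_le_exp (show 0 ≤ 7 * |s| by positivity)]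
  have q := m.pow (fun s => by positivity) k
  refine ((((Ex.const (2 ^ k)).mul q fun s => by positivity).mul q fun s => by positivity).mul
    (.const (ST.sn V ℂ k g)) fun _ => apply_nonneg _ _).of_le fun s => ?_
  rw [Api4.sn_eq]
  refine ST.sn_comp ((simE 1 _ one_pos (lor s)).toContinuousLinearEquiv : V →L[ℝ] V) (p s)
    (ContinuousLinearMap.opNorm_le_bound _ (by positivity) fun x => ?_) (p s) (fun x => ?_) g _
    (fun x => ?_) k
  · exact (congrArg _ (simE_apply one_pos (lor s) x)).trans_le (bq_le s x)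
  · have := bq_le (-s) (sim 1 (T.bq va vb s) 0 x)
    rw [bq_inv (neg_add_cancel s), abs_neg] at this
    exact this.trans_eq (congrArg (_ * ‖·‖) (simE_apply one_pos (lor s) x).symm)
  · exact (Grp.simS_apply _ _ _ _ _).trans (congrArg _ (simE_apply one_pos (lor s) x).symm)

/-- the grading on the domain -/
def gl : Module.End ℂ D := ⟨⟨c.G, EP.Bas.gadd⟩, EP.Bas.gsmul⟩

/-- exponential growth along the boosts -/
def G0 (P : Module.End ℂ D) : Prop := (∃ P' : D → D, ∀ v w, inner ℂ (P v) w = inner ℂ v (P' w)) ∧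
  ∀ w, ∃ C r : ℝ, 0 ≤ C ∧ 0 ≤ r ∧ ∀ s, ‖P (vd c s w)‖ ≤ C * Real.exp (r * |s|)

variable {c} {P P' : Module.End ℂ D} {B : Fld D}

namespace G0

theorem one : G0 c 1 := ⟨⟨id, fun _ _ => rfl⟩, fun w => (Ex.const ‖w‖).of_le fun s => (vd_nrm c s w).le⟩

theorem add : G0 c P → G0 c P' → G0 c (P + P') := fun ⟨⟨X, a⟩, h⟩ ⟨⟨Y, b⟩, h'⟩ =>
  ⟨⟨X + Y, fun v w => by
    simp only [LinearMap.add_apply, Pi.add_apply, inner_add_left, inner_add_right, a, b]⟩,
    fun w => (Ex.add (h w) (h' w)).of_le fun s => norm_add_le _ _⟩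

theorem smul (z : ℂ) : G0 c P → G0 c (z • P) := fun ⟨⟨X, a⟩, h⟩ =>
  ⟨⟨conj z • X, fun v w => by
    simp only [LinearMap.smul_apply, Pi.smul_apply, inner_smul_left, inner_smul_right, a]⟩,
    fun w => ((Ex.const ‖z‖).mul (h w) fun _ => norm_nonneg _).of_le fun s => (norm_smul _ _).le⟩

theorem gam : G0 c P → G0 c (P * gl c) := fun ⟨⟨X, a⟩, h⟩ =>
  ⟨⟨fun w => c.G (X w), fun v w => (a _ _).trans (c.hN.herm _ _)⟩, fun w =>
    Ex.of_le (h (c.G w)) fun s => le_of_eq (congrArg (‖P ·‖) ((c.hN.GU _ _ _ _ one_pos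
      (lor _)).symm.trans (congrArg _ (c.hN.GU _ _ _ _ one_pos (lor _)).symm)))⟩

theorem fld (h : G0 c P) (hB : c.Q.fld B) (g : Sch) (w : D) :
    Ex fun s => ‖P (vd c s (B (ev (Grp.simS one_pos (lor s) 0 g)) w))‖ := by
  haveI := ana_row.baire
  haveI := ana_row.barr
  obtain ⟨⟨X, a⟩, h⟩ := h
  let Λ := Grp.toC (fun f => B f w) (fun f g z => c.Q.lin B f g z _ hB) (c.Q.cont B _ hB)
  have cv : ∀ s, Continuous (vd c s) := fun s =>
    AddMonoidHomClass.continuous_of_bound _ 1 fun v => by rw [vd_nrm, one_mul]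
  obtain ⟨m, k, C, hC, b⟩ := JBp.ubp (fun s => P ∘ₗ vd c s ∘ₗ Λ.toLinearMap)
    (fun s => cont_of_weak _ dense_univ fun z _ => by
      show Continuous fun f => inner ℂ z (P _)
      simp only [← inner_conj_symm z, a]
      exact Complex.continuous_conj.comp (((cv s).comp Λ.continuous).inner continuous_const))
    (fun m s => m * exp (m * |s|)) fun f => by
      obtain ⟨C, r, p, q, k⟩ := h (B (ev f) w)
      obtain ⟨m, hm⟩ := exists_nat_ge (max C r)
      refine ⟨m, fun s => (k s).trans ?_⟩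
      have := (le_max_left C r).trans hm
      have := (le_max_right C r).trans hm
      gcongr
  exact (((Ex.const C).mul (b := fun s => m * exp (m * |s|)) ⟨m, m, m.cast_nonneg, m.cast_nonneg,
    fun _ => le_rfl⟩ fun _ => by positivity).mul (ex_sn k g) fun _ => JBp.sn0 _ _).of_le fun s => b s _

/-- **growth**: multiplication by a field -/
theorem op {k : Rp} {Φ : Fin k.n → Fld D} (hΦ : IsMf c.Q k Φ) (z : Fin k.n → ℂ) {f : Fn}
    (hf : IsTest f) (h : G0 c P) : G0 c (P * op hΦ.1 z hf) := by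
  obtain ⟨W, σ, hW⟩ := EG.rpx_row.ex k
  refine ⟨?_, fun w => ?_⟩
  · obtain ⟨X, a⟩ := h.1
    choose Ψ _ b using fun i => c.Q.adj _ (hΦ.1 i)
    exact ⟨fun w => ∑ i, conj (z i) • Ψ i (bar f) (X w), fun v w => by
      simp only [Module.End.mul_apply, a, op_apply, sum_inner, inner_sum, inner_smul_left,
        inner_smul_right, fun i => b i f v (X w) hf]⟩
  obtain ⟨g, rfl⟩ := id hf
  have ρ : ∀ i j, Ex fun s => ‖W s i j‖ := fun i j =>
    let ⟨C, r, p, q, b⟩ := hW.bd
    ⟨C, r, p, q, fun s => by simpa using b s i j (by simp)⟩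
  refine (Ex.sum Finset.univ fun j => (Ex.sum Finset.univ fun l => (ρ j l).mul (.const ‖z l‖)
    fun _ => norm_nonneg _).mul (h.fld (hΦ.1 j) g w) fun _ => norm_nonneg _).of_le fun s => ?_
  have e : T.cp (T.bq va vb s) (ev g) = ev (Grp.simS one_pos (lor s) 0 g) :=
    funext fun x => (Grp.simS_apply _ _ _ _ _).symm
  have e1 := DFunLike.congr_fun (cov hΦ hW s z hf) w
  simp only [Module.End.mul_apply] at e1 ⊢
  rw [e1, op_apply, map_sum, map_sum, e]
  refine (norm_sum_le _ _).trans (Finset.sum_le_sum fun j _ => ?_)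
  rw [map_smul, map_smul, norm_smul]
  exact mul_le_mul_of_nonneg_right ((norm_sum_le Finset.univ fun l => W s j l * z l).trans
    (Finset.sum_le_sum fun l _ => (norm_mul _ _).le)) (norm_nonneg _)

/-- continuity and growth -/
theorem eg (u : U1 (Vb c)) (a : ∀ v w, inner ℂ (P v) w = inner ℂ v (P' w)) (h : G0 c P)
    (h' : G0 c (P' * P)) (w : D) : Eg fun s => ((P (vd c s w) : D) : Completion D) := by
  refine ⟨(Completion.continuous_coe D).comp (continuous_iff_continuousAt.2 fun t =>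
    tendsto_iff_norm_sub_tendsto_zero.2 ?_), (h.2 w).imp fun C => Exists.imp fun r k => by
      simpa only [Completion.norm_coe] using k⟩
  obtain ⟨C, r, -, -, k⟩ := h'.2 w
  have c1 : Continuous fun s => ‖vd c s w - vd c t w‖ := by
    simp only [← Completion.norm_coe (vd c _ w - _), Completion.coe_sub, ← vd_coe]
    exact ((u.cont _).sub continuous_const).norm
  have c2 : Tendsto (fun s => √(‖vd c s w - vd c t w‖ *
      (C * exp (r * |s|) + ‖P' (P (vd c t w))‖))) (𝓝 t) (𝓝 0) :=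
    (c1.mul (by fun_prop)).sqrt.tendsto' _ _ (by simp)
  refine squeeze_zero (fun _ => norm_nonneg _) (fun s => Real.le_sqrt_of_sq_le ?_) c2
  rw [← inner_self_eq_norm_sq (𝕜 := ℂ)]
  nth_rewrite 1 [← map_sub P]
  rw [a, map_sub P']
  exact (re_inner_le_norm _ _).trans (mul_le_mul_of_nonneg_left
    ((norm_sub_le _ _).trans (add_le_add (k s) le_rfl)) (norm_nonneg _))

end G0

end

end Vale.Agent.N352.RP
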