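import Vale.Agent.N352.RP.Du
import Vale.Agent.N352.F.Rl
import Vale.Agent.P352R.Gz.Top

/-!
# N352, block RP: local nets without the generator of the dilations
-/

set_option linter.all false

open Filter Topology

namespace Vale.Agent.N352.RP

noncomputable section

open Vale.Agent.N352.Rn

section net

open Vale.Agent.P352 Vale.Agent.P352.GF Vale.Agent.P352.BW
open Vale.Agent.P352X Vale.Agent.P352X.EB EP P352R P352R.Tw
open UniformSpace (Completion)

variable {D : Type*} [NormedAddCommGroup D] [InnerProductSpace ℂ D] (c : Cf D)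
  {N : Set V → VonNeumannAlgebra (Completion D)}

theorem rn0 (y : GI.Cy c.Q) (h : Dn.Net c.Q c.G c.Γ N) (r : Dn.Rel c.Q c.Γ N) : RN c N := by
  have k : ∀ X, kt c * X * star (kt c) = (1 / 2 : ℂ) • (X + c.Γ * X * c.Γ) +
      (-1 * Complex.I / 2 : ℂ) • ((X - c.Γ * X * c.Γ) * c.Γ) := fun X => by
    have := kz_conj (SGx.g2 c) (e := -1) (by norm_num) X
    rwa [neg_neg, ← kz_star' (SGx.gs _)] at this
  refine ⟨h.mono, fun u O o X hX => ?_, fun O O' o o' a b X hX => ?_,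
    fun O B B' f o hB ad hf X hX v w => ?_, r.cyc⟩
  · obtain ⟨Y, hY, e⟩ := h.cov u.s u.L u.a O o X hX u.hs u.hL
    have e1 : Y * SGx.U0 c u.toSg = SGx.U0 c u.toSg * X := ContinuousLinearMap.ext
      fun z => (congrArg _ (Ug_apply _ u.hs u.hL _ _)).trans
        ((e z).trans (Ug_apply _ u.hs u.hL _ _).symm)
    have e2 : SGx.U0 c u.toSg * X * star (SGx.U0 c u.toSg) = Y := by
      rw [← e1, mul_assoc, (SGx.uni0 _ _).1.2, mul_one]
    rcases SGx.cas u with p | p <;> rw [p]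
    · rwa [e2]
    · rw [star_mul, SGx.gs, ← mul_assoc, mul_assoc c.Γ, mul_assoc c.Γ, e2]
      exact h.gam _ (Rg.img o u) _ hY
  · have l := h.loc O O' o o' (fun x p y q => Ap.wdg_opp Grp.nb Grp.na (a p) (b q)) X hX
    rw [k]
    exact add_mem ((N O').commutant.toStarSubalgebra.smul_mem l.1 _)
      ((N O').commutant.toStarSubalgebra.smul_mem l.2 _)
  · obtain ⟨O', o', a, b⟩ := F.gap o.2.isCompact_closure hf.2.1 fun x p y q => hf.2.2 q x p
    have l := r.rel O O' o o' (fun x p => b x (subset_closure p)) X hX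
    have c' : ∀ v, Dn.Cyc c.Q v := fun v S p q => (y S p q).ge trivial
    rw [k]
    simp only [ContinuousLinearMap.add_apply (_ • _), ContinuousLinearMap.smul_apply,
      inner_add_right, inner_smul_right, l.1 B B' f v w hB ad ⟨hf.1, hf.2.1, a⟩ (c' v) (c' w),
      l.2 B B' f v w hB ad ⟨hf.1, hf.2.1, a⟩ (c' v) (c' w)]

/-- **relatively local nets give local nets** -/
theorem net0 (m : P.MfA c.Q) (y : GI.Cy c.Q) (h : Dn.Net c.Q c.G c.Γ N) (r : Dn.Rel c.Q c.Γ N) :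
    ∃ N', LN0 c.Q c.G c.Γ N' :=
  ⟨_, lng (rn0 c y h r) (Br.mfa.1 m)⟩

end net

open P352 GF P352R P352R.P P352R.G P352W.Net P352X.EG.Wb Le L22
open UniformSpace (Completion)

variable {D : Type*} [NormedAddCommGroup D] [InnerProductSpace ℂ D] {Q R : Theory D} {G : D → D}
  {Γ : Completion D →L[ℂ] Completion D}

/-- the net of the subtheory -/
theorem sub1 (g : Gr Q G) (g' : Gr R G) (s : IsEnl R Q) (ex : ∀ v : D, Γ v = (G v : D))
    (f : CntF R ∨ MfA R ∧ FSL R) (a : ∀ S B f, R.fld B → In S f → Aff (Le.N R S) (B f))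
    (k : ∀ O O' B f P', Dn.Spc O O' → Q.fld B → In O' f → Le.Ad (B f) P' → ∀ X ∈ Le.N R O,
      Wc ι (B f) P' (X + Γ * X * Γ) ∧ Wc ι (B f) P' ((X - Γ * X * Γ) * Γ)) :
    Dn.Net Q G Γ (Le.N R) ∧ Dn.Rel Q Γ (Le.N R) := by
  have cm : ∀ S, ∀ Y ∈ WS R S, Y ∈ (Le.N R S).commutant := fun S Y hY =>
    VonNeumannAlgebra.mem_commutant_iff.2 fun X hX => ((mem_cmt ws_star).1 hX Y hY).symm
  have n : Dn.Net R G Γ (Le.N R) := ⟨ex, fun S S' _ _ k X hX => (mem_cmt ws_star).2 fun Y hY =>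
      (mem_cmt ws_star).1 hX Y fun B f P' a b => hY B f P' a ⟨b.1, b.2.1, b.2.2.trans k⟩,
    fun s L y S _ X hX hs hL => (cov2 g' f hs hL y X hX).imp fun _ k =>
      ⟨k.1, DFunLike.congr_fun k.2⟩, fun _ _ => gam2 g' ex, fun O O' _ _ p X hX =>
      ⟨cm _ _ fun B f P' b i ad => (k O O' B f P' p (s.fld _ b) i ad X hX).1,
        cm _ _ fun B f P' b i ad => (k O O' B f P' p (s.fld _ b) i ad X hX).2⟩⟩
  have r := F.rel_of_aff g' n fun O _ Y hY B B' f v w hB ad hf _ _ => by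
    obtain ⟨P', p, q⟩ := a O B f hB hf
    rw [show B' (bar f) w = P' w from ext_inner_left ℂ fun u => by rw [← ad f u w hf.1, p]]
    exact q Y hY v w
  have u : Dn.Ue Q = Dn.Ue R := by
    funext s' L y z
    unfold Dn.Ue
    rw [s.U]
  have o : Dn.om Q = Dn.om R := by
    unfold Dn.om
    rw [s.vac]
  exact ⟨⟨ex, n.mono, u ▸ n.cov, n.gam, n.loc⟩, o ▸ r.cyc, fun O O' _ _ p X hX =>
    ⟨fun B B' f v w hB ad hf _ _ => (k O O' B f _ p hB hf (fun v w => ad f v w hf.1) X hX).1 v w,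
      fun B B' f v w hB ad hf _ _ => (k O O' B f _ p hB hf (fun v w => ad f v w hf.1) X hX).2 v w⟩⟩

/-- **subtheories give local nets** -/
theorem sub0 (c : EP.Cf D) (m : MfA c.Q) (y : GI.Cy c.Q) {R : Theory D} (s : IsEnl R c.Q)
    (g' : Gr R c.G) (f : N352.Flds R) (d : GI.Cy c.Q ∧ GI.Ana R ∨ EBd c.Q ∧ LEB R) :
    ∃ N, EP.LN0 c.Q c.G c.Γ N := by
  have g : Gr c.Q c.G := Br.gr.2 c.hN.toGr
  have ex := c.hN.ext
  have g2 := Lg.g2 g ex
  have od : ∀ X, c.Γ * (X - c.Γ * X * c.Γ) = -((X - c.Γ * X * c.Γ) * c.Γ) := fun X => by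
    simp only [mul_sub, sub_mul, mul_assoc, Tg.gg g2, g2, mul_one]; abel
  suffices h : Dn.Net c.Q c.G c.Γ (Le.N R) ∧ Dn.Rel c.Q c.Γ (Le.N R) from net0 c m y h.1 h.2
  rcases d with d | ⟨e, l⟩
  · have h : Gz.Hy c.Q R c.G := ⟨g, g', s, c.hN.vac, d.1, d.2⟩
    refine sub1 g g' s ex f (fun S B f hB hf => ?_) fun O O' B f P' p hB hf ad X hX =>
      Gz.af2 h ex (add_mem hX (gam2 g' ex X hX)) (sub_mem hX (gam2 g' ex X hX)) (Tg.ev g2 X) (od X)
        hB (P352X.Ap.in_univ' hf) (fun g hg x hx y hy => p x (hg.2.2 hx) y (hf.2.2 hy)) ad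
    obtain ⟨B', -, ad⟩ := fad hB
    refine ⟨_, ad f hf.1, fun Y hY => (Gz.ws_iff h).2 ?_ B f _ hB hf (ad f hf.1)⟩
    rw [← vn_comm]
    exact VonNeumannAlgebra.mem_commutant_iff.2 fun X hX =>
      VonNeumannAlgebra.mem_commutant_iff.1 hY X ((mem_cmt ws_star).2 fun Z hZ =>
        mem_vn.1 hX Z ((Gz.ws_iff h).1 hZ))
  have r0 : Dr c.Q := EP.Wb.dr c
  have dv : ∀ m w, H246.Dv c.Q m w = H246.Dv R m w := fun m w => by
    unfold H246.Dv
    rw [s.U]
  have r : Dr R := fun m v => by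
    have := r0 m v
    rw [dv] at this
    unfold H246.U1 at this ⊢
    rwa [s.U] at this
  have mono : ∀ S S', S ⊆ S' → ∀ X ∈ Le.N R S, X ∈ Le.N R S' := fun S S' k X hX =>
    (mem_cmt ws_star).2 fun Y hY =>
      (mem_cmt ws_star).1 hX Y fun B f P' a b => hY B f P' a ⟨b.1, b.2.1, b.2.2.trans k⟩
  refine sub1 g g' s ex f (fun _ _ _ => Le.aff r l) fun O O' B f P' p hB hf ad X hX => ?_
  have hX' := mono O (cc O') (fun x hx y hy => ?_) X hX
  · refine Tg.af2 g g' s ex r l (fun B hB f hf => ?_) (add_mem hX' (gam2 g' ex X hX'))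
      (sub_mem hX' (gam2 g' ex X hX')) (Tg.ev g2 X) (od X) hB hf ad
    obtain ⟨k, b⟩ := e B hB
    obtain ⟨C, b⟩ := b f hf
    obtain ⟨C', p, q⟩ := Tw.en_le r0 k
    have d : dL r0 = dL r := LinearMap.ext (dv o)
    refine ⟨k, |C| * C', by positivity, fun v => (b v).trans ?_⟩
    rw [← d, mul_assoc]
    exact (mul_le_mul_of_nonneg_right (le_abs_self C) (Br.en_eq c.Q k v ▸ H246.en_nonneg k v)).trans
      (mul_le_mul_of_nonneg_left (q v) (abs_nonneg C))
  · have := p x hx y hy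
    simp only [GF.mdot, Pi.sub_apply] at this ⊢
    exact (Finset.sum_congr rfl fun m _ => by ring).trans_lt this

end

end Vale.Agent.N352.RP
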