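import Vale.Agent.N352.RP.Wd

/-!
# N352, block Bo: operators that are localized in opposite wedges commute
-/

set_option linter.all false

open Filter Topology
open scoped ComplexConjugate

namespace Vale.Agent.N352.RP

open Vale.Agent.N352.Rn

open Vale.Agent.P352 Vale.Agent.P352.GF Vale.Agent.P352.BW Vale.Agent.P352.H246
open Vale.Agent.P352.H496 Vale.Agent.P352.H755 Vale.Agent.P352.H15
open Vale.Agent.P352X Vale.Agent.P352X.EB EP P352W.Net P352R.Tw
open UniformSpace (Completion)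
open Complex (I)

noncomputable section

section klein

variable {R : Type*} [Ring R] [Algebra ℂ R] {g X : R} {e : ℂ}

/-- the Klein operator -/
def ku (e : ℂ) (g : R) : R := ((1 + e * I) / 2 : ℂ) • 1 + ((1 - e * I) / 2 : ℂ) • g

theorem ku_conj (h : g * g = 1) (k : e * e = 1) (X : R) : ku e g * X * ku (-e) g =
    (1 / 2 : ℂ) • (X + g * X * g) + (e * I / 2 : ℂ) • ((X - g * X * g) * g) := by
  have i : e * I * (e * I) = -1 := by linear_combination (I * I) * k + Complex.I_mul_I
  simp only [ku, add_mul, mul_add, sub_mul, smul_mul_assoc, mul_smul_comm, one_mul, mul_one,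
    mul_assoc, h]
  match_scalars <;> first
    | linear_combination (1 / 4 : ℂ) * i
    | linear_combination (-1 / 4 : ℂ) * i

theorem ku_ev (h : g * g = 1) (k : e * e = 1) (p : X * g = g * X) : ku e g * X * ku (-e) g = X := by
  rw [ku_conj h k, mul_assoc, p, ← mul_assoc, h, one_mul, sub_self, zero_mul]
  module

theorem ku_od (h : g * g = 1) (k : e * e = 1) (p : X * g = -(g * X)) :
    ku e g * X * ku (-e) g = (e * I) • (X * g) := by
  rw [ku_conj h k, mul_assoc, p, mul_neg, ← mul_assoc, h, one_mul, sub_neg_eq_add, add_mul, p]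
  module

end klein

universe u

variable {D : Type u} [NormedAddCommGroup D] [InnerProductSpace ℂ D] {E : Type*}
  [NormedAddCommGroup E] [InnerProductSpace ℂ E] {a b y : V} {O : Set V}
  {C C' Z Z' : Module.End ℂ E}

/-- the fields of `c`, extended to the domain `E` -/
structure Xd (c : Cf D) (κ : E →ₗᵢ[ℂ] Completion D) (k : D → E) (g : Module.End ℂ E)
    (L : Set V → Set (Module.End ℂ E)) : Prop where
  m : MfAll c.Q
  cv : ∀ L a, IsLor L → H246.Cov c.Q 1 L a
  hk : ∀ v, κ (k v) = v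
  hg : ∀ x, κ (g x) = c.Γ (κ x)
  ex : ∀ O B f, c.Q.fld B → In O f → ∃ X ∈ Algebra.adjoin ℂ (L O), (∃ X', Ad X X') ∧
    ∀ v, X (k v) = k (B f v)

namespace Xd

variable {c : Cf D} {κ : E →ₗᵢ[ℂ] Completion D} {k : D → E} {g : Module.End ℂ E}
  {L : Set V → Set (Module.End ℂ E)} (h : Xd c κ k g L)
include h

theorem g2 : g * g = 1 := LinearMap.ext fun x => κ.injective (by
  rw [Module.End.mul_apply, h.hg, h.hg]
  exact DFunLike.congr_fun (SGx.g2 c) _)

theorem kz (e x) : κ (ku e g x) = kz e c.Γ (κ x) := by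
  simp only [ku, P352R.Tw.kz, LinearMap.add_apply, LinearMap.smul_apply, map_add, map_smul, h.hg,
    ContinuousLinearMap.add_apply, ContinuousLinearMap.smul_apply]
  rfl

theorem ad : Ad (ku (-1) g) (ku 1 g) := fun v w => by
  rw [← κ.inner_map_map, ← κ.inner_map_map v, h.kz, h.kz, ← kz_star (SGx.gs c),
    ContinuousLinearMap.star_eq_adjoint, ContinuousLinearMap.adjoint_inner_left]

theorem uu : ku 1 g * ku (-1) g = 1 := by simpa using ku_ev h.g2 (one_mul 1) (Commute.one_left g).eq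

theorem uv : ku 1 g (k c.Q.vac) = k c.Q.vac := κ.injective (by
  rw [h.kz, h.hk]
  exact kz_fix (SGx.gv c))

theorem br {A A' : D → D} (p : Al c.Q O A A') : ∃ X ∈ Algebra.adjoin ℂ (L O), ∃ X', Ad X X' ∧
    (∀ v, X (k v) = k (A v)) ∧ ∀ v, X' (k v) = k (A' v) := by
  suffices s : ∃ X ∈ Algebra.adjoin ℂ (L O), (∃ X', Ad X X') ∧ ∀ v, X (k v) = k (A v) by
    obtain ⟨X, i, ⟨X', d⟩, e⟩ := s
    refine ⟨X, i, X', d, e, fun v => κ.injective (Completion.denseRange_coe.eq_of_inner_right ℂ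
      fun w => ?_)⟩
    rw [← h.hk w, κ.inner_map_map, ← d, e, ← κ.inner_map_map, h.hk, h.hk, h.hk, h.hk,
      Completion.inner_coe, Completion.inner_coe, p.adj]
  induction p with
  | one => exact ⟨1, one_mem _, ⟨1, fun _ _ => rfl⟩, fun _ => rfl⟩
  | add _ _ _ _ _ _ p q =>
    obtain ⟨X, i, ⟨X', d⟩, e⟩ := p
    obtain ⟨Y, i', ⟨Y', d'⟩, e'⟩ := q
    exact ⟨X + Y, add_mem i i', ⟨X' + Y', fun v w => by
      simp only [LinearMap.add_apply, inner_add_left, inner_add_right, d v w, d' v w]⟩,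
      fun v => κ.injective (by
        simp only [LinearMap.add_apply, e, e', map_add, h.hk, Completion.coe_add])⟩
  | smul z _ _ _ p =>
    obtain ⟨X, i, ⟨X', d⟩, e⟩ := p
    exact ⟨z • X, Subalgebra.smul_mem _ i z, ⟨conj z • X', fun v w => by
      simp only [LinearMap.smul_apply, inner_smul_left, inner_smul_right, d v w]⟩,
      fun v => κ.injective (by
        simp only [LinearMap.smul_apply, e, map_smul, h.hk, Completion.coe_smul])⟩
  | fld B _ f _ _ s _ _ t _ p =>
    obtain ⟨X, i, ⟨X', d⟩, e⟩ := p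
    obtain ⟨Y, i', ⟨Y', d'⟩, e'⟩ := h.ex O B f s t
    exact ⟨Y * X, mul_mem i' i, ⟨_, d'.mul d⟩, fun v => by rw [Module.End.mul_apply, e, e']⟩

theorem twc (p : ∀ Y ∈ L O, Commute C (ku (-1) g * Y * ku 1 g)) {Y}
    (i : Y ∈ Algebra.adjoin ℂ (L O)) : Commute C (ku (-1) g * Y * ku 1 g) := by
  induction i using Algebra.adjoin_induction with
  | mem Y i => exact p Y i
  | algebraMap r =>
    have := ku_ev h.g2 (e := -1) (by norm_num) (Algebra.commutes r g)
    rw [neg_neg] at this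
    rw [this]
    exact (Algebra.commutes r C).symm
  | add _ _ _ _ p q => simpa only [mul_add, add_mul] using p.add_right q
  | mul X Y _ _ p q =>
    have := p.mul_right q
    rwa [mul_assoc, ← mul_assoc (ku 1 g), ← mul_assoc (ku 1 g), h.uu, one_mul, ← mul_assoc,
      mul_assoc _ X] at this

theorem lv0 (d : Ad Z Z') (p : ∀ X ∈ L O, Commute Z X) :
    Lv c 1 O (κ (Z (k c.Q.vac))) (κ (Z' (k c.Q.vac))) := fun A A' q => by
  obtain ⟨X, i, X', d', e, e'⟩ := h.br q
  rw [ContinuousLinearMap.one_apply, ContinuousLinearMap.one_apply, ← h.hk, ← h.hk (A _), ← e, ← e',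
    κ.inner_map_map, κ.inner_map_map, d'.symm, d.symm]
  exact congrArg _ (DFunLike.congr_fun
    (Algebra.commute_of_mem_adjoin_of_forall_mem_commute i p).symm.eq _)

theorem tw_vac {A : D → D} {X : Module.End ℂ E} (e : ∀ v, X (k v) = k (A v)) :
    κ ((ku (-1) g * X * ku 1 g) (k c.Q.vac)) = kt c (A c.Q.vac : D) := by
  rw [Module.End.mul_apply, Module.End.mul_apply, h.uv, e, h.kz, h.hk]

theorem lv1 (d : Ad C C') (p : ∀ Y ∈ L O, Commute C (ku (-1) g * Y * ku 1 g)) :
    Lv c (kt c) O (κ (C (k c.Q.vac))) (κ (C' (k c.Q.vac))) := fun A A' q => by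
  obtain ⟨X, i, X', d', e, e'⟩ := h.br q
  have w := (h.ad.mul d').mul h.ad.symm
  rw [← mul_assoc] at w
  rw [← h.tw_vac e, ← h.tw_vac e', κ.inner_map_map, κ.inner_map_map, w.symm, d.symm]
  exact congrArg _ (DFunLike.congr_fun (h.twc p i).symm.eq _)

/-- **operators that are localized in opposite wedges commute** -/
theorem com (ha : IsNull a) (hb : IsNull b) (hab : GF.mdot a b = 1)
    (l : ∀ X ∈ L (Wdg a b y), ∀ Y ∈ L (Wdg b a y), Commute X (ku (-1) g * Y * ku 1 g))
    (d : Ad C C') (p : ∀ Y ∈ L (Wdg b a y), Commute C (ku (-1) g * Y * ku 1 g))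
    (d' : Ad Z Z') (q : ∀ X ∈ L (Wdg a b y), Commute Z X) : Commute C Z := by
  have l' := fun Y i X j => (h.twc (l X j) (Y := Y) i).symm
  have w := fun {X X'} (d : Ad X X') => mul_assoc (ku (-1) g) X' _ ▸ (h.ad.mul d).mul h.ad.symm
  have s : Function.Surjective (kt c) := fun z => ⟨star (kt c) z, DFunLike.congr_fun cuk.1.2 z⟩
  refine LinearMap.ext fun v => ext_inner_left ℂ fun x => ?_
  rw [← (d.mul d').symm, ← (d'.mul d).symm]
  refine congrArg (inner ℂ · v) (κ.injective ((s.denseRange.comp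
    (den c.Q hb ha (by rwa [md_comm]) y) (kt c).continuous).eq_of_inner_left ℂ fun B => ?_))
  obtain ⟨Y, i, Y', e, r, -⟩ := h.br B.2
  rw [Function.comp_apply, ← h.tw_vac r, κ.inner_map_map, κ.inner_map_map, (d.mul d').symm,
    (d'.mul d).symm]
  refine congrArg _ (κ.injective ((den c.Q ha hb hab y).eq_of_inner_right ℂ fun A => ?_))
  obtain ⟨X0, j0, X1, e0, r0, r1⟩ := h.br A.2.star
  have t := tri h.m h.cv ha hb hab (fun B B' z => by
      obtain ⟨Y, i, Y', e, r, r'⟩ := h.br z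
      rw [← h.tw_vac r, ← h.tw_vac r']
      exact h.lv0 (w e) (l' Y i))
    (h.lv1 (e0.mul d) fun Y i => (Algebra.commute_of_mem_adjoin_of_forall_mem_commute j0
      (l' Y (Algebra.subset_adjoin i))).symm.mul_left (p Y i))
    (h.lv0 (d'.mul (w e)) fun X j => (q X j).mul_left (l' Y i X j))
  rw [κ.inner_map_map, κ.inner_map_map, (e0.mul d).symm, (d'.mul (w e)).symm] at t
  rw [← h.hk, ← r1, κ.inner_map_map, κ.inner_map_map, e0.symm, e0.symm]
  have c1 := Algebra.commute_of_mem_adjoin_of_forall_mem_commute j0 (l' Y i)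
  have c2 := Algebra.commute_of_mem_adjoin_of_forall_mem_commute j0 q
  have c3 := h.twc p i
  generalize ku (-1) g * Y * ku 1 g = T at t c1 c3
  refine t.trans (congrArg _ (DFunLike.congr_fun (show Z * T * (X0 * C) = X0 * (Z * C * T) from ?_) _))
  rw [mul_assoc, ← mul_assoc T, c1.eq, mul_assoc X0, ← c3.eq, ← mul_assoc, c2.eq]
  simp only [mul_assoc]

end Xd

end

end Vale.Agent.N352.RP
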