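import Vale.Agent.N352.RP.Vf
import Vale.Agent.N352.V5.Dl

/-!
# N352, block RP: a virial current forbids spontaneous breaking, without the generator of dilations
-/

set_option linter.all false

open Filter Topology Set

namespace Vale.Agent.N352.U.Vp

open Vale.Agent.P352 Vale.Agent.P352.GF Vale.Agent.P352.BW Vale.Agent.P352.H246
open Vale.Agent.P352.H496 Vale.Agent.P352.H755 Vale.Agent.P352.H15
open Vale.Agent.P352X Vale.Agent.P352X.EB
open UniformSpace (Completion)
open EP (Cf sg_row wb_row)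
open Complex (I)

noncomputable section

theorem dcl {H : Type*} [NormedAddCommGroup H] {l l' : ℝ → H → ℂ} {M : ℝ}
    (h : ∀ e, Continuous (l e))
    (b : ∀ e ∈ Metric.ball (0 : ℝ) 1, ∀ x y, ‖l' e x - l' e y‖ ≤ M * ‖x - y‖) :
    IsClosed {x | ∀ e ∈ Metric.ball (0 : ℝ) 1, HasDerivAt (l · x) (l' e x) e} := by
  refine isSeqClosed_iff_isClosed.1 fun x y hx t e he => ?_
  refine hasDerivAt_of_tendstoUniformlyOn (l := atTop) (f := fun n e => l e (x n))
    (f' := fun n e => l' e (x n)) (g' := fun e => l' e y) Metric.isOpen_ball ?_ (.of_forall hx)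
    (fun e _ => ((h e).tendsto y).comp t) he
  rw [Metric.tendstoUniformlyOn_iff]
  intro ε hε
  have := ((t.const_sub y).norm).const_mul M
  rw [sub_self, norm_zero, mul_zero] at this
  filter_upwards [this.eventually (gt_mem_nhds hε)] with n k e he
  rw [dist_eq_norm]
  exact (b e he _ _).trans_lt k

variable {D : Type*} [NormedAddCommGroup D] [InnerProductSpace ℂ D] {c : Cf D}
  {j j' K K' Z Z' X X' P P' : D → D} {B : Fld D} {v y : D} {ρ : ℝ}

theorem prd {φ u : ℝ → D} {M : ℝ} {a b : ℂ}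
    (l : ∀ e ∈ Metric.ball (0 : ℝ) 1, ‖φ e - φ 0‖ ≤ M * ‖e‖) (t : Tendsto u (𝓝 0) (𝓝 (u 0)))
    (h1 : HasDerivAt (fun e => inner ℂ (φ e) (u 0)) a 0)
    (h2 : HasDerivAt (fun e => inner ℂ (φ 0) (u e)) b 0) :
    HasDerivAt (fun e => inner ℂ (φ e) (u e)) (a + b) 0 := by
  have z : HasDerivAt (fun e => inner ℂ (φ e - φ 0) (u e - u 0)) 0 0 := by
    rw [hasDerivAt_iff_isLittleO, Asymptotics.isLittleO_iff]
    intro ε hε
    have := (tendsto_iff_norm_sub_tendsto_zero.1 t).const_mul M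
    rw [mul_zero] at this
    filter_upwards [this.eventually (gt_mem_nhds hε), Metric.ball_mem_nhds (0 : ℝ) one_pos]
      with e k he
    rw [sub_self, inner_zero_left, sub_zero, smul_zero, sub_zero, sub_zero]
    refine (norm_inner_le_norm _ _).trans ((mul_le_mul_of_nonneg_right (l e he)
      (norm_nonneg _)).trans ?_)
    rw [mul_right_comm]
    exact mul_le_mul_of_nonneg_right k.le (norm_nonneg _)
  have := ((z.fun_add h1).fun_add h2).sub_const (inner ℂ (φ 0) (u 0))
  rw [zero_add] at this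
  refine this.congr_of_eventuallyEq (.of_forall fun e => ?_)
  simp only [inner_sub_left, inner_sub_right]
  ring

theorem en_add (k : ℕ) : ∀ v w, en c.Q k (v + w) ≤ en c.Q k v + en c.Q k w := by
  induction k with
  | zero => exact norm_add_le
  | succ k ih =>
    intro v w
    simp only [en, (wb_row c).add]
    rw [add_add_add_comm, ← Finset.sum_add_distrib]
    exact add_le_add (ih v w) (Finset.sum_le_sum fun m _ => ih _ _)

theorem en_smul (z : ℂ) (k : ℕ) : ∀ v, en c.Q k (z • v) = ‖z‖ * en c.Q k v := by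
  induction k with
  | zero => exact norm_smul z
  | succ k ih => exact fun v => by simp only [en, (wb_row c).smul, ih, mul_add, Finset.mul_sum]

theorem eb_f (eb : EBd c.Q) (hB : c.Q.fld B) : ∃ j, ∀ k f, In univ f → ∃ C, 0 ≤ C ∧
    ∀ v, en c.Q k (B f v) ≤ C * en c.Q (j + k) v := by
  obtain ⟨j, h⟩ := eb B hB
  refine ⟨j, fun k => ?_⟩
  induction k with
  | zero => exact fun f hf => have ⟨C, p⟩ := h f hf
      ⟨|C|, abs_nonneg C, fun v => (p v).trans
        (mul_le_mul_of_nonneg_right (le_abs_self C) (en_nonneg _ _))⟩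
  | succ k ih =>
    intro f hf
    obtain ⟨C, p, q⟩ := ih f hf
    choose C' p' q' using fun m => ih _ (Ap.in_pd m hf)
    have s := Finset.sum_nonneg fun m (_ : m ∈ Finset.univ) => p' m
    refine ⟨C + ∑ m, C' m, add_nonneg p s, fun v => ?_⟩
    have : ∑ m, en c.Q k (Dv c.Q m (B f v)) ≤
        ∑ m, (C' m * en c.Q (j + k) v + C * en c.Q (j + k) (Dv c.Q m v)) :=
      Finset.sum_le_sum fun m _ => by
        rw [EG.Wb.Dv_fld (EP.Wb.dr c) m hB hf.1, ← neg_one_smul ℂ]
        refine (en_add _ _ _).trans (add_le_add ?_ (q _))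
        rw [en_smul, norm_neg, norm_one, one_mul]
        exact q' m v
    rw [Finset.sum_add_distrib, ← Finset.sum_mul, ← Finset.mul_sum] at this
    have n := Finset.sum_nonneg fun m (_ : m ∈ Finset.univ) =>
      en_nonneg (Q := c.Q) (j + k) (Dv c.Q m v)
    show en c.Q k _ + ∑ m, en c.Q k (Dv c.Q m (B f v)) ≤
      _ * (en c.Q (j + k) v + ∑ m, en c.Q (j + k) (Dv c.Q m v))
    nlinarith [q v, mul_nonneg s n]

theorem eb_al (eb : EBd c.Q) (p : Al c.Q univ P P') : ∀ k, ∃ j C, 0 ≤ C ∧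
    ∀ v, en c.Q k (P v) ≤ C * en c.Q j v := by
  induction p with
  | one => exact fun k => ⟨k, 1, zero_le_one, fun v => (one_mul _).ge⟩
  | add X X' Y Y' _ _ a b =>
    intro k
    obtain ⟨i, C, p, q⟩ := a k
    obtain ⟨i', C', p', q'⟩ := b k
    refine ⟨max i i', C + C', add_nonneg p p', fun v => (en_add _ _ _).trans ?_⟩
    rw [add_mul]
    exact add_le_add ((q v).trans (mul_le_mul_of_nonneg_left ((wb_row c).mono _ _ _
      (le_max_left _ _)) p)) ((q' v).trans (mul_le_mul_of_nonneg_left ((wb_row c).mono _ _ _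
        (le_max_right _ _)) p'))
  | smul z X X' _ a =>
    intro k
    obtain ⟨i, C, p, q⟩ := a k
    exact ⟨i, ‖z‖ * C, by positivity, fun v => by
      rw [en_smul, mul_assoc]; exact mul_le_mul_of_nonneg_left (q v) (norm_nonneg _)⟩
  | fld A B g X X' hA _ _ hg _ a =>
    intro k
    obtain ⟨i, h⟩ := eb_f eb hA
    obtain ⟨C, p, q⟩ := h k g hg
    obtain ⟨i', C', p', q'⟩ := a (i + k)
    exact ⟨i', C * C', by positivity, fun v => (q _).trans (by
      rw [mul_assoc]; exact mul_le_mul_of_nonneg_left (q' v) p)⟩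

theorem dv_dil {s : ℝ} (hs : 0 < s) (m : Ix) (v : D) :
    Dv c.Q m (Fss.u c.Q s hs v) = ((s⁻¹ : ℝ) : ℂ) • Fss.u c.Q s hs (Dv c.Q m v) := by
  have R := EP.Fsg.m1 c
  have h0 := (wb_row c).der m v
  rw [← mul_zero s⁻¹] at h0
  have h1 := hasDerivAt_iso (U_add hs H496.isLor_one 0) (U_smul hs H496.isLor_one 0)
    (fun v => H246.U_nrm0 (Q := c.Q) hs H496.isLor_one 0 v)
    (h0.scomp (0 : ℝ) (hasDerivAt_const_mul (x := (0 : ℝ)) s⁻¹))
  rw [← map_smul, Complex.coe_smul]
  refine ((wb_row c).der m _).unique (h1.congr_of_eventuallyEq (.of_forall fun t => ?_))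
  refine (R _ _ _ _ _ _ v one_pos hs H496.isLor_one H496.isLor_one (.inl rfl)).trans
    (Eq.trans ?_ (R _ _ _ _ _ _ v hs one_pos H496.isLor_one H496.isLor_one (.inl rfl)).symm)
  rw [one_mul, mul_one, Fss.sim_dil, Fss.sim_dil, smul_zero, add_zero, zero_add]
  congr 1
  funext n
  simp only [bas, Pi.smul_apply, smul_eq_mul, mul_ite, mul_zero, mul_inv_cancel_left₀ hs.ne']

theorem en_dil {s : ℝ} (hs : 0 < s) (k : ℕ) : ∀ v,
    en c.Q k (Fss.u c.Q s hs v) ≤ (1 + s⁻¹) ^ k * en c.Q k v := by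
  have p := inv_pos.2 hs
  induction k with
  | zero => exact fun v => (H246.U_nrm0 hs H496.isLor_one 0 v).trans_le (by simp [en])
  | succ k ih =>
    intro v
    simp only [en, dv_dil, en_smul, mul_add, Finset.mul_sum, Complex.norm_real,
      Real.norm_of_nonneg p.le]
    refine add_le_add ((ih v).trans ?_) (Finset.sum_le_sum fun m _ =>
      (mul_le_mul_of_nonneg_left (ih _) p.le).trans ?_)
    · exact mul_le_mul_of_nonneg_right (pow_le_pow_right₀ (by linarith) k.le_succ) (en_nonneg _ _)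
    · rw [← mul_assoc, pow_succ']
      exact mul_le_mul_of_nonneg_right (mul_le_mul_of_nonneg_right (by linarith) (by positivity))
        (en_nonneg _ _)

variable (c) in
/-- the dilations -/
abbrev ue (e : ℝ) : D → D := c.Q.U (Real.exp e) GF.one 0

theorem ex3 {e : ℝ} (he : e ∈ Metric.ball (0 : ℝ) 1) : Real.exp e ≤ 3 :=
  (Real.exp_le_exp.2 (abs_lt.1 (mem_ball_zero_iff.1 he)).2.le).trans
    (Real.exp_one_lt_d9.le.trans (by norm_num))

theorem bd (eb : EBd c.Q) (p : Al c.Q univ P P') (w : D) :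
    ∃ M, ∀ e ∈ Metric.ball (0 : ℝ) 1, ‖P (ue c (-e) w)‖ ≤ M := by
  obtain ⟨j, C, a, b⟩ := eb_al eb p 0
  refine ⟨C * (4 ^ j * en c.Q j w), fun e he => (b _).trans (mul_le_mul_of_nonneg_left
    ((en_dil (Real.exp_pos _) j w).trans (mul_le_mul_of_nonneg_right
      (pow_le_pow_left₀ (by positivity) ?_ j) (en_nonneg _ _))) a)⟩
  rw [← Real.exp_neg, neg_neg]
  linarith [ex3 he]

variable (c) in
/-- the dilates of an operator -/
def kk (K : D → D) (e : ℝ) (v : D) : D := ue c e (K (ue c (-e) v))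

theorem ka (a : ∀ v w, inner ℂ (K v) w = inner ℂ v (K' w)) (e : ℝ) (w u : D) :
    inner ℂ (kk c K' e w) u = inner ℂ w (kk c K e u) := by
  have R := EP.Fsg.m1 c
  have := V5.u_adj R (-e) u (K' (ue c (-e) w))
  rw [neg_neg] at this
  rw [kk, kk, V5.u_adj R, ← this, ← inner_conj_symm, ← a, inner_conj_symm]

theorem kv (e : ℝ) : kk c K e c.Q.vac = ue c e (K c.Q.vac) :=
  congrArg (fun v => ue c e (K v)) (c.Q.U_vac _ _ _ (Real.exp_pos _) H496.isLor_one)

theorem kn (e : ℝ) (w : D) : ‖kk c K e w‖ = ‖K (ue c (-e) w)‖ :=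
  U_nrm0 (Real.exp_pos _) H496.isLor_one _ _

theorem k0 (w : D) : kk c K 0 w = K w := by rw [kk, neg_zero, ue, V5.u0, V5.u0]

theorem shf (d : ∀ w, HasDerivAt (fun e => inner ℂ w (ue c e v)) (inner ℂ w y) 0) (w : D) (t : ℝ) :
    HasDerivAt (fun e => inner ℂ w (ue c e v)) (inner ℂ w (ue c t y)) t := by
  have R := EP.Fsg.m1 c
  have b := HasDerivAt.comp_const_add (-t) t ((neg_add_cancel t).symm ▸ d (ue c (-t) w))
  simpa only [← V5.u_adj R, V5.u_add R, add_neg_cancel_left] using b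

theorem kc (hc : Cd c.Q) {R : ℝ} (hR : 0 ≤ R) (k : Cm c.Q (Fr R) K) {e : ℝ}
    (he : e ∈ Metric.ball (0 : ℝ) 1) : Cm c.Q (Fr (3 * R)) (kk c K e) :=
  k.cj hc (Real.exp_pos e) (a := 0) (fun v => by
    rw [kk, ue, ue, V5.u_add (EP.Fsg.m1 c), neg_add_cancel, V5.u0]) fun x hx => by
    have hs := Real.exp_pos e
    simp only [Fr, mem_setOf_eq, sub_zero, Pi.smul_apply, smul_eq_mul, abs_mul,
      abs_of_pos (inv_pos.2 hs)] at hx ⊢
    rw [lt_inv_mul_iff₀ hs, mul_add, mul_inv_cancel_left₀ hs.ne']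
    nlinarith [ex3 he]

/-- **from the vacuum to all vectors** -/
theorem lift0 (hc : Cd c.Q) (a : ∀ v w, inner ℂ (K v) w = inner ℂ v (K' w))
    (a' : ∀ v w, inner ℂ (Z v) w = inner ℂ v (Z' w)) {R : ℝ} (hR : 0 ≤ R) (k : Cm c.Q (Fr R) K)
    (z : Cm c.Q (Fr R) Z) (b : ∀ w, ∃ M, ∀ e ∈ Metric.ball (0 : ℝ) 1, ‖Z' (ue c (-e) w)‖ ≤ M)
    (d : ∀ w, HasDerivAt (fun e => inner ℂ w (ue c e (K c.Q.vac))) (inner ℂ w (Z c.Q.vac)) 0)
    (u w : D) : ∀ e ∈ Metric.ball (0 : ℝ) 1,
      HasDerivAt (fun e => inner ℂ w (kk c K e u)) (inner ℂ w (kk c Z e u)) e := by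
  let S : Submodule ℂ (Completion D) :=
    { carrier := ⋂ w : D, {ψ | ∀ e ∈ Metric.ball (0 : ℝ) 1, HasDerivAt
        (fun e => inner ℂ ((kk c K' e w : D) : Completion D) ψ)
        (inner ℂ ((kk c Z' e w : D) : Completion D) ψ) e}
      add_mem' := fun p q => mem_iInter.2 fun w e he => by
        simpa only [inner_add_right] using (mem_iInter.1 p w e he).fun_add (mem_iInter.1 q w e he)
      zero_mem' := mem_iInter.2 fun w e he => by
        simpa only [inner_zero_right] using hasDerivAt_const e (0 : ℂ)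
      smul_mem' := fun z _ p => mem_iInter.2 fun w e he => by
        simpa only [inner_smul_right] using (mem_iInter.1 p w e he).const_mul z }
  have m : ∀ u : D, (u : Completion D) ∈ S ↔ ∀ w, ∀ e ∈ Metric.ball (0 : ℝ) 1,
      HasDerivAt (fun e => inner ℂ w (kk c K e u)) (inner ℂ w (kk c Z e u)) e := fun u => by
    refine mem_iInter.trans (forall_congr' fun w => ?_)
    simp only [mem_setOf_eq, Completion.inner_coe, ka a, ka a']
  refine (m u).1 ((rs_sub c.Q (K := S) (isClosed_iInter fun w => ?_) ((m _).2 fun w e _ => ?_)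
    (O := Fr (3 * R)) (isOpen_lt (by fun_prop) (by fun_prop)) ⟨bas 1 (3 * R + 1), by simp [Fr, bas]⟩
    fun B f v hB hf hv => (m _).2 fun w e he => ?_).ge trivial) w
  · obtain ⟨M, h⟩ := b w
    refine dcl (M := M) (fun e => by fun_prop) fun e he x y => ?_
    rw [← inner_sub_right]
    exact (norm_inner_le_norm _ _).trans (mul_le_mul_of_nonneg_right
      (by rw [Completion.norm_coe, kn]; exact h e he) (norm_nonneg _))
  · simpa only [kv] using shf d w e
  obtain ⟨B', hB', ad⟩ := c.Q.adj B hB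
  have p := Al.fld B B' f _ _ hB hB' ad hf .one
  rw [kc hc hR z he _ _ p, ← p.adj']
  refine ((m v).1 hv _ e he).congr_of_eventuallyEq ?_
  filter_upwards [Metric.isOpen_ball.mem_nhds he] with e he
  rw [kc hc hR k he _ _ p, ← p.adj']

theorem ug (e : ℝ) (v : D) : ue c e (c.G v) = c.G (ue c e v) :=
  c.hN.GU _ _ _ _ (Real.exp_pos _) H496.isLor_one

theorem lift1 (hc : Cd c.Q) (eb : EBd c.Q) (x : Al c.Q (Metric.ball 0 ρ) X X')
    (z : Al c.Q (Metric.ball 0 ρ) Z Z')
    (d : ∀ w, HasDerivAt (fun e => inner ℂ w (ue c e (X c.Q.vac))) (inner ℂ w (Z c.Q.vac)) 0)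
    (u w : D) : ∀ e ∈ Metric.ball (0 : ℝ) 1,
      HasDerivAt (fun e => inner ℂ w (kk c X e u)) (inner ℂ w (kk c Z e u)) e := fun e he => by
  have s := sp_fr (ρ := ρ) (R := 2 * |ρ|) (by linarith [le_abs_self ρ])
  have o := H496.isLor_one
  have a1 : ∀ {X X' : D → D}, Al c.Q (Metric.ball 0 ρ) X X' → ∀ v w,
      inner ℂ (X v + c.G (X (c.G v))) w = inner ℂ v (X' w + c.G (X' (c.G w))) := fun x v w => by
    rw [inner_add_left, inner_add_right, x.adj, c.hN.herm, x.adj, c.hN.herm]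
  have a2 : ∀ {X X' : D → D}, Al c.Q (Metric.ball 0 ρ) X X' → ∀ v w,
      inner ℂ (X (c.G v) - c.G (X v)) w = inner ℂ v (c.G (X' w) - X' (c.G w)) := fun x v w => by
    rw [inner_sub_left, inner_sub_right, x.adj, c.hN.herm, c.hN.herm, x.adj]
  have b := bd eb (z.star.mono (subset_univ _))
  have d' := fun w => d (c.G w)
  simp only [c.hN.herm, ← ug] at d'
  have h1 := lift0 hc (a1 x) (a1 z) (by positivity) (tw s x).1 (tw s z).1 (fun w =>
    have ⟨M, p⟩ := b w
    have ⟨M', q⟩ := b (c.G w)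
    ⟨M + M', fun e he => (norm_add_le _ _).trans (add_le_add (p e he) (by
      rw [gn, ← ug]; exact q e he))⟩) (fun w => by
    simpa only [c.hN.vac, ue, fun e => U_add (Q := c.Q) (Real.exp_pos e) o, inner_add_right] using
      (d w).fun_add (d' w)) u w e he
  have h2 := lift0 hc (a2 x) (a2 z) (by positivity) (tw s x).2 (tw s z).2 (fun w =>
    have ⟨M, p⟩ := b w
    have ⟨M', q⟩ := b (c.G w)
    ⟨M + M', fun e he => (norm_sub_le _ _).trans (add_le_add (by rw [gn]; exact p e he) (by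
      rw [← ug]; exact q e he))⟩) (fun w => by
    simpa only [c.hN.vac, ue, fun e => H746.U_sub' (Q := c.Q) (Real.exp_pos e) o, inner_sub_right]
      using (d w).fun_sub (d' w)) (c.G u) w e he
  have e1 : ∀ (X : D → D) e, (2⁻¹ : ℂ) * (inner ℂ w (kk c (fun v => X v + c.G (X (c.G v))) e u) +
      inner ℂ w (kk c (fun v => X (c.G v) - c.G (X v)) e (c.G u))) = inner ℂ w (kk c X e u) :=
    fun X e => by
      simp only [kk, ug, c.hN.inv]
      rw [← inner_add_right, ← U_add (Real.exp_pos e) o, add_add_sub_cancel, ← two_smul ℂ,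
        U_smul (Real.exp_pos e) o, inner_smul_right, inv_mul_cancel_left₀ two_ne_zero]
  simpa only [e1] using (h1.fun_add h2).const_mul (2⁻¹ : ℂ)

variable (c) in
/-- weak derivatives -/
def Wd (v y : D) : Prop := ∀ w, HasDerivAt (fun e => inner ℂ w (ue c e v)) (inner ℂ w (I • y)) 0

theorem wd_al (hc : Cd c.Q) (eb : EBd c.Q) (h1 : 1 ≤ ρ) (hj : Al c.Q (Metric.ball 0 ρ) j j')
    (h : ∀ B f, c.Q.fld B → In (Metric.ball 0 1) f →
      Wd c (B f c.Q.vac) (j (B f c.Q.vac) - B f (j c.Q.vac)))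
    (p : Al c.Q (Metric.ball 0 1) P P') : Wd c (P c.Q.vac) (j (P c.Q.vac) - P (j c.Q.vac)) := by
  have o := H496.isLor_one
  have R := EP.Fsg.m1 c
  induction p with
  | one =>
    intro w
    simpa only [ue, fun e => c.Q.U_vac _ _ 0 (Real.exp_pos e) o, sub_self, smul_zero,
      inner_zero_right] using hasDerivAt_const (0 : ℝ) _
  | add X X' Y Y' _ _ a b =>
    intro w
    simpa only [ue, fun e => U_add (Q := c.Q) (Real.exp_pos e) o, inner_add_right, hj.map_add,
      add_sub_add_comm, smul_add] using (a w).fun_add (b w)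
  | smul z X X' _ a =>
    intro w
    simpa only [ue, fun e => U_smul (Q := c.Q) (Real.exp_pos e) o, inner_smul_right, hj.map_smul,
      ← smul_sub, mul_left_comm I] using (a w).const_mul z
  | fld A B g X X' hA hB ad hg _ a =>
    intro w
    have x := (Al.fld A B g _ _ hA hB ad hg .one).mono (Metric.ball_subset_ball h1)
    have z := Al.smul I _ _ ((hj.mul x).sub (x.mul hj))
    have l := fun u => lift1 hc eb x z (h A g hA hg) u w
    simp only [← ka x.adj, ← ka z.adj] at l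
    obtain ⟨M, b⟩ := bd eb (z.star.mono (subset_univ _)) w
    have n := fun e => U_nrm0 (Q := c.Q) (Real.exp_pos e) o 0 (X c.Q.vac)
    have q := prd (M := M) (φ := fun e => kk c (fun v => B (bar g) v) e w)
      (u := fun e => ue c e (X c.Q.vac)) (fun e he => ?_)
      (by
        rw [show ue c 0 (X c.Q.vac) = X c.Q.vac from V5.u0 _]
        exact V5.cts (u := fun e => ue c e (X c.Q.vac)) n (V5.u0 _) (a _))
      (l _ 0 (Metric.mem_ball_self one_pos)) (a _)
    · refine (q.congr_of_eventuallyEq (.of_forall fun e => ?_)).congr_deriv ?_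
      · beta_reduce
        rw [ka x.adj]
        simp only [kk, ue, V5.u_add R, neg_add_cancel, V5.u0]
      · rw [ka z.adj, ka x.adj, k0, k0, ue, V5.u0, ← inner_add_right, x.map_smul, ← smul_add,
          sub_eq_add_neg (j _) (X _), ← neg_one_smul ℂ (X _), x.map_add, x.map_smul, neg_one_smul,
          ← sub_eq_add_neg, sub_add_sub_cancel]
    set t := kk c (fun v => B (bar g) v) e w - kk c (fun v => B (bar g) v) 0 w with ht
    have m := (convex_ball (0 : ℝ) 1).norm_image_sub_le_of_norm_hasDerivWithin_le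
      (C := M * ‖t‖) (fun r hr => (l t r hr).hasDerivWithinAt) (fun r hr =>
        (norm_inner_le_norm _ _).trans (mul_le_mul_of_nonneg_right
          (by rw [kn]; exact b r hr) (norm_nonneg t))) (Metric.mem_ball_self one_pos) he
    rw [← inner_sub_left, ← ht, inner_self_eq_norm_sq_to_K, norm_pow, RCLike.norm_ofReal, abs_norm,
      pow_two, sub_zero, mul_right_comm] at m
    rcases (norm_nonneg t).eq_or_lt with e | e
    · rw [← e]
      exact mul_nonneg ((norm_nonneg _).trans (b 0 (Metric.mem_ball_self one_pos))) (norm_nonneg _)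
    exact le_of_mul_le_mul_right m e

theorem Wd.uq {y' : D} (a : Wd c v y) (b : Wd c v y') : y = y' :=
  smul_right_injective D Complex.I_ne_zero (ext_inner_left ℂ fun w => (a w).unique (b w))

theorem Wd.dil (a : Wd c v y) (t : ℝ) : Wd c (ue c t v) (ue c t y) := fun w => by
  have R := EP.Fsg.m1 c
  simpa only [← V5.u_adj R, V5.u_add R, add_comm t,
    U_smul (Q := c.Q) (Real.exp_pos t) H496.isLor_one] using a (ue c (-t) w)

theorem Wd.all (a : Wd c v y) (ψ : Completion D) :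
    HasDerivAt (fun e => inner ℂ ψ ((ue c e v : D) : Completion D))
      (I * inner ℂ ψ (y : Completion D)) 0 := by
  have cl := dcl (M := ‖I • y‖) (l := fun e ψ => inner ℂ ψ ((ue c e v : D) : Completion D))
    (l' := fun e ψ => inner ℂ ψ ((ue c e (I • y) : D) : Completion D)) (fun e => by fun_prop)
    fun e he x z => by
      rw [← inner_sub_left, mul_comm]
      exact (norm_inner_le_norm _ _).trans_eq (by
        rw [Completion.norm_coe, U_nrm0 (Real.exp_pos e) H496.isLor_one])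
  have := closure_minimal (s := range ((↑) : D → Completion D)) ?_ cl
    (Completion.denseRange_coe ψ) 0 (Metric.mem_ball_self one_pos)
  · rwa [show ue c 0 (I • y) = I • y from V5.u0 _, Completion.coe_smul, inner_smul_right] at this
  rintro _ ⟨w, rfl⟩ e -
  simpa only [Completion.inner_coe] using shf a w e

open Classical in
variable (c) in
/-- the weak generator -/
def gy (v : D) : D := if h : ∃ y, Wd c v y then h.choose else 0

theorem Wd.gy (a : Wd c v y) : gy c v = y := by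
  have h : ∃ y, Wd c v y := ⟨y, a⟩
  rw [Vp.gy, dif_pos h]
  exact h.choose_spec.uq a

theorem wo_of (hc : Cd c.Q) (eb : EBd c.Q) (h1 : 1 ≤ ρ) (hj : Al c.Q (Metric.ball 0 ρ) j j')
    {R : ℝ} (hl : Cm c.Q (Fr R) j) (h : ∀ B f, c.Q.fld B → In (Metric.ball 0 1) f →
      Wd c (B f c.Q.vac) (j (B f c.Q.vac) - B f (j c.Q.vac))) :
    Wo c Real.exp fun _ => GF.one := fun P P' p => by
  have o := H496.isLor_one
  have R := EP.Fsg.m1 c
  have w := fun P P' => wd_al (P := P) (P' := P') hc eb h1 hj h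
  have h0 : gy c c.Q.vac = 0 := (w _ _ .one).gy.trans (sub_self _)
  have d : ∃ y, Wd c (P c.Q.vac) y := by
    obtain ⟨s, p', hs⟩ := ((al_bd p).and (eventually_gt_atTop 0)).exists
    obtain ⟨X, X', x, e, -⟩ := cov_al (inv_pos.2 hs) o (hc _ 0 (inv_pos.2 hs)) p'
    have := (w X X' (x.mono ?_)).dil (Real.log s)
    · rw [← c.Q.U_vac _ _ 0 (inv_pos.2 hs) o, ← e, ← Real.exp_log (inv_pos.2 hs), Real.log_inv, ue,
        V5.u_add R, add_neg_cancel, V5.u0, c.Q.U_vac _ _ 0 (Real.exp_pos _) o] at this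
      exact ⟨_, this⟩
    rintro _ ⟨x, hx, rfl⟩
    rw [mem_ball_zero_iff] at hx ⊢
    rwa [Fss.sim_dil, zero_add, norm_smul, Real.norm_of_nonneg (inv_pos.2 hs).le,
      inv_mul_lt_iff₀ hs, mul_one]
  obtain ⟨y, d⟩ := d
  refine ⟨y, d.all, fun η g => d.gy ▸ orth hc h0 (fun s v hs => ?_) (hj.mono (subset_univ _)) hl
    (fun X X' x => ?_) g p⟩
  · obtain ⟨t, rfl⟩ : ∃ t, Real.exp t = s := ⟨_, Real.exp_log hs⟩
    by_cases k : ∃ y, Wd c v y
    · obtain ⟨y, k⟩ := k
      rw [k.gy, (k.dil t).gy]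
    have k' : ¬∃ y, Wd c (ue c t v) y := fun ⟨y, q⟩ => k ⟨_, by
      simpa only [ue, V5.u_add R, neg_add_cancel, V5.u0] using q.dil (-t)⟩
    rw [gy, gy, dif_neg k, dif_neg k']
    exact (Fss.u c.Q _ hs).map_zero
  · show _ - _ = X (_ - _)
    rw [(w X X' x).gy, h0, sub_zero, sub_sub_cancel]

/-- **a virial current forbids the spontaneous breaking of the similitudes** -/
theorem ivac0 (c : Cf D) (hc : Cd c.Q) (eb : Df.EBd c.Q) {T : Ix → Ix → Fld D} {J : Ix → Fld D}
    (hT : ∀ m n, c.Q.bose (T m n)) (hP : P352R.P.PCh c.Q T c.A) (h : Dn.Vir c.Q T J) :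
    Dn.IVac c.Q := by
  have hF := isCutoff_cutF
  obtain ⟨n, C, m, hC, hm, e0⟩ := (F.dens_cur hT F.dil_sim).sub (F.dens_one (h.bose GF.o))
  let χ : Fn := (Metric.closedBall 0 1).indicator 1
  obtain ⟨r0, h0, h1⟩ := Fss.far hF (f := χ) (HasCompactSupport.intro (isCompact_closedBall 0 1)
    fun x hx => indicator_of_notMem hx _)
  have t : ∀ r, r0 ≤ r → IsTest (cutF r) := fun r hr => F.cut_test hF (h0.trans_le hr)
  obtain ⟨R, hR, hg⟩ := ((eventually_ge_atTop r0).and (Tn.cut_cpt hF)).exists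
  obtain ⟨ρ, hρ1, hρ⟩ := hg.2.1.isCompact.isBounded.subset_ball_lt 1 0
  have f := fun i => c.Q.bose_fld _ (hC i)
  choose C' f' ad using fun i => c.Q.adj _ (f i)
  have sp : ∀ i, tsupport (fun x => m i x * cutF R x) ⊆ tsupport (cutF R) := fun i =>
    tsupport_mul_subset_right
  let j : D →ₗ[ℂ] D := ∑ i, Fss.fl (f i) (hm i _ hg.1)
  have e : ∀ v, j v = ∑ i, C i (fun x => m i x * cutF R x) v := fun v => by
    simp only [j, LinearMap.sum_apply, Fss.fl_apply]
  refine ivac hc (cn_free hc) hT hP (wo_of (j := j) hc (P352R.Br.ebd.1 (Bg.ebd.1 eb)) hρ1.le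
    (funext e ▸ Al.finsum Finset.univ fun i _ => .fld _ _ _ _ _ (f i) (f' i) (ad i)
      ⟨hm i _ hg.1, hg.2.1.mul_left, (sp i).trans hρ⟩ .one) (R := 2 * ρ)
    (cm_of j fun B g v hB k => ?_) fun B g hB k w => ?_)
  · simp only [e, ← Fss.fl_apply hB k.1, map_sum]
    exact Finset.sum_congr rfl fun i _ => c.Q.loc _ _ _ _ _ (hC i) hB (hm i _ hg.1) k.1
      fun x hx y hy => sp_fr le_rfl x (hρ (sp i hx)) y (k.2.2 hy)
  obtain ⟨z, p, q⟩ := h.gen cutF B g w hF hB ⟨k.1, k.2.1, subset_univ _⟩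
  rw [inner_smul_right, show inner ℂ w (j (B g c.Q.vac) - B g (j c.Q.vac)) = z from
    tendsto_nhds_unique (tendsto_const_nhds.congr' ?_) p]
  · exact q
  filter_upwards [eventually_ge_atTop r0] with r hr
  have e1 := fun v => e0 _ v (t r hr)
  simp only [id] at e1
  simp only [Dn.cm, e, show ∀ v, Dn.cur T (fun x => x) (cutF r) v - J GF.o (cutF r) v = _ from e1,
    ← Fss.fl_apply hB k.1, map_sum, ← Finset.sum_sub_distrib]
  refine congrArg _ (Finset.sum_congr rfl fun n _ => (Fss.cm_eq (hC n) hB k.1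
    (hm n _ hg.1) (hm n _ (t r hr)) (fun x hx y hy =>
      h1 R r hR hr _ (fun x e => by simp [e]) x hx y (subset_tsupport _ ?_)) _))
  exact (indicator_of_mem (Metric.ball_subset_closedBall (k.2.2 hy)) _).trans_ne one_ne_zero

end

end Vale.Agent.N352.U.Vp
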