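import Vale.Agent.N352.EP.Cf
import Vale.Agent.N352.Gen
import Vale.Agent.N352.U.Mi
import Vale.Agent.P352Y.WhA

/-!
# N352, block RP: charges of local currents do not move the vacua
-/

set_option linter.all false

open Filter Topology Set

namespace Vale.Agent.N352.U.Vp

open Vale.Agent.P352 Vale.Agent.P352.GF Vale.Agent.P352.BW Vale.Agent.P352.H246
open Vale.Agent.P352.H496 Vale.Agent.P352.H755 Vale.Agent.P352.H15
open Vale.Agent.P352X Vale.Agent.P352X.EB
open UniformSpace (Completion)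
open EP (Cf sg_row)

noncomputable section

variable {D : Type*} [NormedAddCommGroup D] [InnerProductSpace ℂ D] {c : Cf D} {Q : Theory D}
  {O O' : Set V} {j j' k Y P P' : D → D} {s : ℝ} {w z : Completion D}

/-- a wedge far to the right -/
def Fr (R : ℝ) : Set V := {x | R + |x 0| < x 1}

/-- `k` commutes with the polynomials in `O` -/
def Cm (Q : Theory D) (O : Set V) (k : D → D) : Prop :=
  ∀ P P', Al Q O P P' → ∀ v, k (P v) = P (k v)

/-- translation invariant vectors -/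
def Iv (Q : Theory D) (z : Completion D) : Prop := ∀ a, Ut Q a z = z

/-- vacua that are created by an operator at infinity -/
def Gv (Q : Theory D) (w : Completion D) : Prop := ∀ P P', Al Q univ P P' →
  ∃ η η' : Completion D, ∀ K K', Al Q univ K K' → (∃ R, Cm Q (Fr R) K) →
    inner ℂ w (K (P Q.vac) : D) = inner ℂ ((K' Q.vac : D) : Completion D) η ∧
    inner ℂ w (P (K Q.vac) : D) = inner ℂ η' (K Q.vac : D)

/-- there are enough even vacua of this kind -/
def Cn (c : Cf D) : Prop := ∃ S : Set (Completion D), Dense S ∧ ∀ v ∈ S, ∃ η, Iv c.Q η ∧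
  (∀ w, Iv c.Q w → inner ℂ w η = inner ℂ w v) ∧ Gv c.Q η ∧ c.Γ η = η

/-- covariance under dilations and translations -/
def Cd (Q : Theory D) : Prop := ∀ s a, 0 < s → Cov Q s GF.one a

theorem uu (c : Cf D) {s' : ℝ} (hs : 0 < s) (hs' : 0 < s') (a a' : V) (v : D) :
    c.Q.U s GF.one a (c.Q.U s' GF.one a' v) = c.Q.U (s * s') GF.one (a + s • a') v := by
  rw [(sg_row c).mul1 _ _ _ _ _ _ _ hs hs' H496.isLor_one H496.isLor_one (.inl rfl)]
  simp only [Fss.sim_dil, zero_add, one_smul]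

theorem u1 (c : Cf D) (v : D) : c.Q.U 1 GF.one 0 v = v := Completion.coe_injective D <| by
  rw [← Grp.coe one_pos H496.isLor_one, Grp.ug_one]; rfl

theorem ui (c : Cf D) (hs : 0 < s) (a : V) (v : D) :
    c.Q.U s GF.one a (c.Q.U s⁻¹ GF.one (-(s⁻¹ • a)) v) = v := by
  rw [uu c hs (inv_pos.2 hs), mul_inv_cancel₀ hs.ne', smul_neg, smul_inv_smul₀ hs.ne',
    add_neg_cancel, u1]

theorem iu (c : Cf D) (hs : 0 < s) (a : V) (v : D) :
    c.Q.U s⁻¹ GF.one (-(s⁻¹ • a)) (c.Q.U s GF.one a v) = v := by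
  rw [uu c (inv_pos.2 hs) hs, inv_mul_cancel₀ hs.ne', neg_add_cancel, u1]

theorem Cm.cj (hc : Cd c.Q) (h : Cm c.Q O j) (hs : 0 < s) {a : V}
    (e : ∀ v, c.Q.U s GF.one a (j v) = k (c.Q.U s GF.one a v))
    (m : ∀ x ∈ O', s⁻¹ • (x - a) ∈ O) : Cm c.Q O' k := fun P P' p v => by
  obtain ⟨X, X', x, e', -⟩ := cov_al (inv_pos.2 hs) H496.isLor_one
    (hc _ (-(s⁻¹ • a)) (inv_pos.2 hs)) p
  have q : ∀ u, P (c.Q.U s GF.one a u) = c.Q.U s GF.one a (X u) := fun u => by
    rw [← ui c hs a (P _), e', iu c hs]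
  rw [← ui c hs a v, q, ← e, ← e, q, h X X' (x.mono ?_)]
  rintro _ ⟨x, hx, rfl⟩
  rw [Fss.sim_dil, neg_add_eq_sub, ← smul_sub]
  exact m x hx

theorem Cm.sub (h : Cm Q O j) (h' : Cm Q O k) : Cm Q O fun v => j v - k v := fun P P' p v => by
  show j _ - k _ = P (j v - k v)
  rw [h P P' p, h' P P' p, sub_eq_add_neg, sub_eq_add_neg, p.map_add, ← neg_one_smul ℂ (k v),
    p.map_smul, neg_one_smul]

/-- `k` commutes with the polynomials in `O` on the vacuum -/
def Cm0 (Q : Theory D) (O : Set V) (k : D → D) : Prop :=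
  ∀ P P', Al Q O P P' → k (P Q.vac) = P (k Q.vac)

theorem Cm0.cj (hc : Cd c.Q) (h : Cm0 c.Q O j) (hs : 0 < s)
    (e : ∀ v, c.Q.U s GF.one 0 (j v) = k (c.Q.U s GF.one 0 v))
    (m : ∀ x ∈ O', s⁻¹ • (x - 0) ∈ O) : Cm0 c.Q O' k := fun P P' p => by
  obtain ⟨X, X', x, e', -⟩ := cov_al (inv_pos.2 hs) H496.isLor_one
    (hc _ (-(s⁻¹ • 0)) (inv_pos.2 hs)) p
  have q : ∀ u, P (c.Q.U s GF.one 0 u) = c.Q.U s GF.one 0 (X u) := fun u => by
    rw [← ui c hs 0 (P _), e', iu c hs]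
  rw [← c.Q.U_vac _ _ 0 hs H496.isLor_one, q, ← e, ← e, q, h X X' (x.mono ?_)]
  rintro _ ⟨x, hx, rfl⟩
  rw [Fss.sim_dil, neg_add_eq_sub, ← smul_sub]
  exact m x hx

theorem Cm0.sub (h : Cm0 Q O j) (h' : Cm Q O k) : Cm0 Q O fun v => j v - k v := fun P P' p => by
  show j _ - k _ = P (j _ - k _)
  rw [h P P' p, h' P P' p, sub_eq_add_neg, sub_eq_add_neg, p.map_add, ← neg_one_smul ℂ (k _),
    p.map_smul, neg_one_smul]

theorem ut_ug (c : Cf D) {L : Ix → V} (hs : 0 < s) (hL : IsLor L) (y : V) (z : Completion D) :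
    Ug c.Q s L 0 (Ut c.Q y z) = Ut c.Q (sim s L 0 y) (Ug c.Q s L 0 z) := by
  refine Completion.induction_on z (isClosed_eq (by fun_prop) (by fun_prop)) fun v => ?_
  have o := H496.isLor_one
  rw [Ut, Ut, Grp.coe one_pos o, Grp.coe hs hL, Grp.coe hs hL, Grp.coe one_pos o,
    (sg_row c).mul1 _ _ _ _ _ _ _ hs one_pos hL o (.inr rfl),
    (sg_row c).mul1 _ _ _ _ _ _ _ one_pos hs o hL (.inl rfl)]
  simp only [Fss.sim_dil, zero_add, one_smul, smul_zero, add_zero, mul_one, one_mul]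
  rw [show (fun m => sim 1 L 0 (GF.one m)) = L from P352Y.mulL_one L]

theorem uni (c : Cf D) {L : Ix → V} (hs : 0 < s) (hL : IsLor L) (a : V) :
    Ug c.Q s L a ∈ unitary (Completion D →L[ℂ] Completion D) :=
  (EP.SGx.uni0 c ⟨s, L, a, hs, hL⟩).1

theorem Iv.inn (h : Iv c.Q w) (y : V) (z : Completion D) :
    inner ℂ w (Ut c.Q y z) = inner ℂ w z :=
  (congrArg (inner ℂ · _) (h y).symm).trans (Grp.ug_inner one_pos H496.isLor_one y _ _)

theorem iv_of (h : ∀ y z, inner ℂ w (Ut c.Q y z) = inner ℂ w z) : Iv c.Q w := fun y =>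
  ext_inner_right ℂ fun z => by
    have u := uni c one_pos H496.isLor_one y
    rw [← ContinuousLinearMap.adjoint_inner_right, ← ContinuousLinearMap.star_eq_adjoint, ← h y,
      show Ut c.Q y (star (Ut c.Q y) z) = z from DFunLike.congr_fun u.2 z]

theorem Iv.star {L : Ix → V} (h : Iv c.Q w) (hs : 0 < s) (hL : IsLor L) :
    Iv c.Q (star (Ug c.Q s L 0) w) := iv_of fun y z => by
  simp only [ContinuousLinearMap.star_eq_adjoint, ContinuousLinearMap.adjoint_inner_left]
  rw [ut_ug c hs hL, h.inn]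

/-- the dilates of a vector that is orthogonal to the vacua tend to zero weakly -/
theorem dil_null {ψ : Completion D} (h : ∀ w, Iv c.Q w → inner ℂ w ψ = 0) (η : Completion D) :
    Tendsto (fun s => inner ℂ (Ug c.Q s GF.one 0 ψ) η) atTop (𝓝 0) := by
  have o := H496.isLor_one
  refine wk_zero (C := ‖ψ‖) (s := {z | ∃ y ζ, z = Ut c.Q y ζ - ζ})
    ((eventually_gt_atTop 0).mono fun s hs =>
      (ContinuousLinearMap.norm_map_of_mem_unitary (uni c hs o 0) ψ).le) ?_ (fun z k => ?_) η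
  · rintro _ ⟨y, ζ, rfl⟩
    have t : Tendsto (fun s : ℝ => Ut c.Q (-(s⁻¹ • y)) ψ - ψ) atTop (𝓝 0) := by
      refine tendsto_sub_nhds_zero_iff.2 ((((sg_row c).utc ψ).tendsto' 0 _ (by
        rw [(sg_row c).ut0]; rfl)).comp ?_)
      simpa using ((tendsto_inv_atTop_zero (𝕜 := ℝ)).smul_const y).neg
    refine squeeze_zero_norm' ((eventually_gt_atTop 0).mono fun s hs => ?_)
      (by simpa using t.norm.mul_const ‖ζ‖)
    have e : inner ℂ (Ug c.Q s GF.one 0 ψ) (Ut c.Q y ζ) =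
        inner ℂ (Ug c.Q s GF.one 0 (Ut c.Q (-(s⁻¹ • y)) ψ)) ζ := by
      rw [ut_ug c hs o, ← Grp.ug_inner (Q := c.Q) one_pos o y (Ut c.Q _ _)]
      congr 1
      rw [← ContinuousLinearMap.mul_apply (Ug _ _ _ y), ← Ut, ← (sg_row c).ut, Fss.sim_dil, zero_add,
        smul_neg, smul_inv_smul₀ hs.ne', add_neg_cancel, (sg_row c).ut0]
      rfl
    rw [inner_sub_right, e, ← inner_sub_left, ← map_sub,
      ← ContinuousLinearMap.norm_map_of_mem_unitary (uni c hs o 0) (_ - ψ)]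
    exact norm_inner_le_norm _ _
  · refine tendsto_const_nhds.congr' ((eventually_gt_atTop 0).mono fun s hs => ?_)
    have i : Iv c.Q z := iv_of fun y ζ => by
      rw [← sub_eq_zero, ← inner_sub_right, ← inner_conj_symm, k _ ⟨y, ζ, rfl⟩, map_zero]
    show _ = inner ℂ _ _
    rw [← inner_conj_symm, ← ContinuousLinearMap.adjoint_inner_left,
      ← ContinuousLinearMap.star_eq_adjoint, h _ (i.star hs o), map_zero]

theorem al_bd (h : Al Q univ P P') : ∀ᶠ s in atTop, Al Q (Metric.ball 0 s) P P' := by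
  induction h with
  | one => exact .of_forall fun _ => .one
  | add X X' Y Y' _ _ a b => exact (a.and b).mono fun _ k => .add _ _ _ _ k.1 k.2
  | smul c X X' _ a => exact a.mono fun _ k => .smul _ _ _ k
  | fld A B g X X' hA hB e hg _ a =>
    obtain ⟨r, hr⟩ := hg.2.1.isCompact.isBounded.subset_ball 0
    filter_upwards [a, eventually_ge_atTop r] with s k hs
    exact .fld _ _ _ _ _ hA hB e ⟨hg.1, hg.2.1, hr.trans (Metric.ball_subset_ball hs)⟩ k

/-- **the key identity** -/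
theorem orth (hc : Cd c.Q) (h0 : Y c.Q.vac = 0)
    (hY : ∀ s v, 0 < s → c.Q.U s GF.one 0 (Y v) = Y (c.Q.U s GF.one 0 v)) (hj : Al c.Q univ j j')
    {R : ℝ} (hl : Cm c.Q (Fr R) j) (hw : Cm0 c.Q (Metric.ball 0 1) fun v => j v - Y v)
    (g : Gv c.Q w) (p : Al c.Q univ P P') : inner ℂ w (Y (P c.Q.vac) : D) = 0 := by
  have o := H496.isLor_one
  let b : V := bas 1 (-(|R| + 2))
  have b0 : b 0 = 0 := by simp [b, bas]
  have b1 : b 1 = -(|R| + 2) := by simp [b, bas]
  obtain ⟨J, J', hJ, e, e'⟩ := cov_al one_pos o (hc 1 b one_pos) hj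
  have hk := hj.sub (hJ.mono (subset_univ _))
  have l1 : Cm c.Q (Fr R) fun v => j v - J v := hl.sub (hl.cj hc one_pos e fun x hx => by
    simp only [Fr, mem_setOf_eq, inv_one, one_smul, Pi.sub_apply, b0, b1, sub_zero] at hx ⊢
    linarith [abs_nonneg R])
  have l2 := hw.sub (hl.cj hc one_pos e (O' := Metric.ball 0 1) fun x hx => by
    have := fun n => (norm_le_pi_norm x n).trans_lt (mem_ball_zero_iff.1 hx)
    simp only [Fr, mem_setOf_eq, inv_one, one_smul, Pi.sub_apply, b0, b1, sub_zero]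
    linarith [le_abs_self R, (abs_lt.1 (this 1)).1, show |x 0| < 1 from this 0])
  have ov : ∀ {X Z : D → D}, (∀ v, c.Q.U 1 GF.one b (X v) = Z (c.Q.U 1 GF.one b v)) →
      ∀ w, Iv c.Q w → inner ℂ w (X c.Q.vac - Z c.Q.vac : D) = 0 := fun k w i => by
    have := k c.Q.vac
    rw [c.Q.U_vac _ _ _ one_pos o] at this
    rw [← this, Completion.coe_sub, ← Grp.coe one_pos o, inner_sub_right, ← Ut, i.inn, sub_self]
  obtain ⟨η, η', hη⟩ := g P P' p
  have t := (dil_null (ov e') η).sub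
    ((Complex.continuous_conj.tendsto' _ _ (map_zero _)).comp (dil_null (ov e) η'))
  rw [sub_zero] at t
  refine tendsto_nhds_unique (tendsto_const_nhds.congr' ?_) t
  filter_upwards [al_bd p, eventually_gt_atTop 0] with s p' hs
  obtain ⟨K, K', hK, f, f'⟩ := cov_al hs o (hc s 0 hs) hk
  have m := l2.cj hc hs (k := fun v => K v - Y v) (O' := Metric.ball 0 s) (fun v => by
    rw [← f, ← hY _ _ hs, ← H746.U_sub' hs o, sub_right_comm]) (fun x hx => by
      rw [mem_ball_zero_iff] at hx ⊢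
      rwa [sub_zero, norm_smul, Real.norm_of_nonneg (inv_pos.2 hs).le, inv_mul_lt_iff₀ hs,
        mul_one]) P P' p'
  obtain ⟨a1, a2⟩ := hη K K' (hK.mono (subset_univ _)) ⟨s * R, l1.cj hc hs f fun x hx => by
    simp only [Fr, mem_setOf_eq, sub_zero, Pi.smul_apply, smul_eq_mul, abs_mul,
      abs_of_pos (inv_pos.2 hs)] at hx ⊢
    rwa [lt_inv_mul_iff₀ hs, mul_add, mul_inv_cancel_left₀ hs.ne']⟩
  simp only [h0, sub_zero] at m
  rw [Function.comp_apply, Grp.coe hs o, Grp.coe hs o, f, f', c.Q.U_vac _ _ _ hs o,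
    inner_conj_symm, ← a1, ← a2, ← m, ← inner_sub_right, ← Completion.coe_sub, sub_sub_cancel]

theorem cm_of (k : D →ₗ[ℂ] D) (h : ∀ B f v, Q.fld B → In O f → k (B f v) = B f (k v)) :
    Cm Q O k := fun P P' p => by
  induction p with
  | one => exact fun _ => rfl
  | add X X' Y Y' _ _ a b => exact fun v => by rw [map_add, a, b]
  | smul c X X' _ a => exact fun v => by rw [map_smul, a]
  | fld A B g X X' hA _ _ hg _ a => exact fun v => by rw [h A g _ hA hg, a]

/-- the operator `Y` is locally the charge of a current -/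
def Ch (Q : Theory D) (Y : D → D) : Prop := ∃ j j' R, Al Q univ j j' ∧ Cm Q (Fr R) j ∧
  Cm Q (Metric.ball 0 1) fun v => j v - Y v

/-- the charges at finite radius -/
theorem fw {ι : Type} [Fintype ι] {C : ι → Fld D} (hC : ∀ i, Q.bose (C i)) (a : ι → ℂ)
    {m : ι → Fn} (hm : ∀ i g, IsTest g → IsTest fun x => m i x * g x) (Y : D →ₗ[ℂ] D)
    {F : ℝ → Fn} (hF : IsCutoff F) (h : ∀ B f v w, Q.fld B → IsTest f → HasCompactSupport f →
      Tendsto (fun R => inner ℂ w (∑ i, a i • C i (fun x => m i x * F R x) (B f v) -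
        B f (∑ i, a i • C i (fun x => m i x * F R x) v))) atTop
        (𝓝 (inner ℂ w (Y (B f v) - B f (Y v))))) : Ch Q Y := by
  let χ : Fn := (Metric.closedBall 0 1).indicator 1
  obtain ⟨r0, h0, h1⟩ := Fss.far hF (f := χ) (HasCompactSupport.intro (isCompact_closedBall 0 1)
    fun x hx => indicator_of_notMem hx _)
  have t : ∀ r, r0 ≤ r → IsTest (F r) := fun r hr =>
    have ⟨_, _, _, _, _, _, k⟩ := hF; (k r (h0.trans_le hr)).1
  obtain ⟨R, hR, hg⟩ := ((eventually_ge_atTop r0).and (Tn.cut_cpt hF)).exists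
  obtain ⟨ρ, hρ⟩ := hg.2.1.isCompact.isBounded.subset_ball 0
  have f := fun i => Q.bose_fld _ (hC i)
  choose C' f' ad using fun i => Q.adj _ (f i)
  have sp : ∀ i, tsupport (fun x => m i x * F R x) ⊆ tsupport (F R) := fun i =>
    tsupport_mul_subset_right
  let j : D →ₗ[ℂ] D := ∑ i, a i • Fss.fl (f i) (hm i _ hg.1)
  have e : ∀ v, j v = ∑ i, a i • C i (fun x => m i x * F R x) v := fun v => by
    simp only [j, LinearMap.sum_apply, LinearMap.smul_apply, Fss.fl_apply]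
  refine ⟨j, _, 2 * ρ, funext e ▸ Al.finsum Finset.univ fun i _ => .smul (a i) _ _ (.fld _ _ _ _ _
    (f i) (f' i) (ad i) ⟨hm i _ hg.1, hg.2.1.mul_left, subset_univ _⟩ .one),
    cm_of j fun B g v hB k => ?_, cm_of (j - Y) fun B g v hB k => ?_⟩
  · simp only [e, ← Fss.fl_apply hB k.1, map_sum, map_smul]
    refine Finset.sum_congr rfl fun i _ => congrArg _ (Q.loc _ _ _ _ _ (hC i) hB (hm i _ hg.1) k.1
      fun x hx y hy => ?_)
    have p := fun n => abs_lt.1 ((norm_le_pi_norm x n).trans_lt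
      (mem_ball_zero_iff.1 (hρ (sp i hx))))
    have q : 2 * ρ + |y 0| < y 1 := k.2.2 hy
    rw [P352X.mdot_eq]
    nlinarith [p 0, p 1, le_abs_self (y 0), neg_abs_le (y 0), mul_self_nonneg (x 2 - y 2),
      mul_self_nonneg (x 3 - y 3)]
  rw [LinearMap.sub_apply, LinearMap.sub_apply, ← Fss.fl_apply hB k.1 (_ - _), map_sub,
    sub_eq_sub_iff_sub_eq_sub]
  refine ext_inner_left ℂ fun w => tendsto_nhds_unique (tendsto_const_nhds.congr' ?_)
    (h B g v w hB k.1 k.2.1)
  filter_upwards [eventually_ge_atTop r0] with r hr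
  simp only [e, ← Fss.fl_apply hB k.1, map_sum, map_smul, ← Finset.sum_sub_distrib, ← smul_sub]
  refine congrArg _ (Finset.sum_congr rfl fun n _ => congrArg _ (Fss.cm_eq (hC n) hB k.1
    (hm n _ hg.1) (hm n _ (t r hr)) (fun x hx y hy =>
      h1 R r hR hr _ (fun x e => by simp [e]) x hx y (subset_tsupport _ ?_)) v))
  exact (indicator_of_mem (Metric.ball_subset_closedBall (k.2.2 hy)) _).trans_ne one_ne_zero

/-- a one parameter group of linear similitudes -/
structure Fl (s : ℝ → ℝ) (L : ℝ → Ix → V) (X : V → V) : Prop where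
  s0 : s 0 = 1
  L0 : L 0 = GF.one
  p : ∀ t, 0 < s t ∧ IsLor (L t)
  d : ∀ n x, HasDerivAt (fun e => sim (s e) (L e) 0 x n) (X x n) 0
  ms : ∀ t e, s (t + e) = s t * s e
  mL : ∀ t e, L (t + e) = P352Y.mulL (L t) (L e)

section flow

variable {L : ℝ → Ix → V} {X : V → V} (K : Fl (fun _ => 1) L X)
include K

theorem Fl.der (c : Cf D) (v : D) :
    HasDerivAt (fun e => c.Q.U 1 (L e) 0 v) (Complex.I • c.A X v) 0 :=
  c.hN.der (fun _ => 1) L (fun _ => 0) X v rfl K.L0 rfl K.p K.d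

theorem Fl.eq {v u : D} (h : HasDerivAt (fun e => c.Q.U 1 (L e) 0 v) (Complex.I • u) 0) :
    c.A X v = u := smul_right_injective D Complex.I_ne_zero ((K.der c v).unique h)

/-- the generator as a linear map -/
def Fl.gen (c : Cf D) : D →ₗ[ℂ] D where
  toFun := c.A X
  map_add' v w := K.eq <| by
    simp only [fun e => U_add (Q := c.Q) (K.p e).1 (K.p e).2, smul_add]
    exact (K.der c v).add (K.der c w)
  map_smul' a v := K.eq <| by
    simp only [fun e => U_smul (Q := c.Q) (K.p e).1 (K.p e).2, RingHom.id_apply, smul_comm _ a]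
    exact (K.der c v).const_smul a

theorem Fl.orth (hc : Cd c.Q) (h : Ch c.Q (c.A X)) (g : Gv c.Q w) (p : Al c.Q univ P P') :
    inner ℂ w (c.A X (P c.Q.vac) : D) = 0 := by
  obtain ⟨j, j', R, a, b, d⟩ := h
  have o := H496.isLor_one
  refine Vp.orth hc (K.eq ?_) (fun s v hs => (K.eq ?_).symm) a b (fun P P' p => d P P' p _) g p
  · simp only [fun e => c.Q.U_vac _ _ 0 (K.p e).1 (K.p e).2, smul_zero]
    exact hasDerivAt_const _ _
  rw [← U_smul hs o]
  refine (hasDerivAt_U hs o (hc s 0 hs) (K.der c v)).congr_of_eventuallyEq (.of_forall fun e => ?_)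
  show c.Q.U _ _ _ _ = c.Q.U _ _ _ _
  rw [(sg_row c).mul1 _ _ _ _ _ _ _ (K.p e).1 hs (K.p e).2 o (.inr rfl),
    (sg_row c).mul1 _ _ _ _ _ _ _ hs (K.p e).1 o (K.p e).2 (.inl rfl)]
  simp only [Fss.sim_dil, zero_add, one_smul, smul_zero, add_zero, Grp.sim_zero, mul_comm s]
  rw [show (fun m => sim 1 (L e) 0 (GF.one m)) = L e from P352Y.mulL_one _]

end flow

theorem Cn.ind (h : Cn c) {S : Set (Completion D)} (hS : IsClosed S)
    (k : ∀ η, Gv c.Q η → c.Γ η = η → η ∈ S) (i : Iv c.Q z) : z ∈ S := by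
  obtain ⟨S', d, h⟩ := h
  refine hS.closure_subset (Metric.mem_closure_iff.2 fun ε hε => ?_)
  obtain ⟨v, m, e⟩ := d.exists_dist_lt z hε
  obtain ⟨η, a, b, g, q⟩ := h v m
  refine ⟨η, k η g q, lt_of_le_of_lt ?_ e⟩
  have := norm_inner_le_norm (𝕜 := ℂ) (z - η) (z - v)
  rw [inner_sub_right, ← b _ fun y => by rw [map_sub, i, a], ← inner_sub_right,
    inner_self_eq_norm_sq_to_K, norm_pow, RCLike.norm_ofReal, abs_norm] at this
  rw [dist_eq_norm, dist_eq_norm]
  nlinarith [norm_nonneg (z - η), norm_nonneg (z - v)]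

theorem Cn.ev (h : Cn c) (i : Iv c.Q z) {u u' : Completion D →L[ℂ] Completion D}
    (e : u = u' ∨ u = c.Γ * u') (v : Completion D) : inner ℂ z (u v) = inner ℂ z (u' v) := by
  rcases e with rfl | rfl
  · rfl
  rw [ContinuousLinearMap.mul_apply, ← ContinuousLinearMap.adjoint_inner_left,
    ← ContinuousLinearMap.star_eq_adjoint, EP.SGx.gs,
    h.ind (S := {z | c.Γ z = z}) (isClosed_eq (by fun_prop) continuous_id) (fun _ _ k => k) i]

/-- the weak derivatives are orthogonal to the vacua -/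
def Wo (c : Cf D) (r : ℝ → ℝ) (L : ℝ → Ix → V) : Prop := ∀ P P', Al c.Q univ P P' → ∃ y : D,
  (∀ ψ : Completion D, HasDerivAt (fun e => inner ℂ ψ (c.Q.U (r e) (L e) 0 (P c.Q.vac) : D))
    (Complex.I * inner ℂ ψ (y : Completion D)) 0) ∧ ∀ η, Gv c.Q η → inner ℂ η (y : Completion D) = 0

theorem Fl.wo {L : ℝ → Ix → V} {X : V → V} (K : Fl (fun _ => 1) L X) (hc : Cd c.Q)
    (q : Ch c.Q (c.A X)) : Wo c (fun _ => 1) L := fun P P' p => ⟨_, fun ψ => by
  have d := (((innerSL ℂ ψ).comp Completion.toComplL).restrictScalars ℝ).hasFDerivAt.comp_hasDerivAt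
    (0 : ℝ) (K.der c (P c.Q.vac))
  simp only [ContinuousLinearMap.coe_restrictScalars', map_smul, ContinuousLinearMap.comp_apply,
    innerSL_apply_apply, Completion.coe_toComplL, smul_eq_mul] at d
  exact d,
  fun η g => K.orth hc q g p⟩

theorem Fl.inv {r : ℝ → ℝ} {L : ℝ → Ix → V} {X : V → V} (K : Fl r L X) (h : Cn c)
    (q : Wo c r L) (i : Iv c.Q z) (t : ℝ) (v : Completion D) :
    inner ℂ z (Ug c.Q (r t) (L t) 0 v) = inner ℂ z v := by
  refine (Completion.denseRange_coe.dense_image (Completion.continuous_coe D)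
    (dense_PS (Q := c.Q))).induction
    (P := fun v => inner ℂ z (Ug c.Q (r t) (L t) 0 v) = inner ℂ z v) ?_
    (isClosed_eq (by fun_prop) (by fun_prop)) v
  rintro _ ⟨v, hv, rfl⟩
  obtain ⟨P, P', p, rfl⟩ := gen_iff.2 hv
  obtain ⟨y, d, o⟩ := q P P' p
  have key : ∀ t, HasDerivAt (fun t => inner ℂ z (Ug c.Q (r t) (L t) 0 (P c.Q.vac : D))) 0 t := by
    intro t
    have d := d (star (Ug c.Q (r t) (L t) 0) z)
    have z0 : inner ℂ (star (Ug c.Q (r t) (L t) 0) z) (y : Completion D) = 0 :=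
      h.ind (S := {w | inner ℂ w (y : Completion D) = 0})
        (isClosed_eq (by fun_prop) continuous_const) (fun η g _ => o η g)
        (i.star (K.p t).1 (K.p t).2)
    rw [z0, mul_zero, ← sub_self t] at d
    refine (d.comp_sub_const t t).congr_of_eventuallyEq (.of_forall fun e => ?_)
    have := h.ev i (EP.SGx.mul0 c ⟨_, _, 0, (K.p t).1, (K.p t).2⟩
      ⟨_, _, 0, (K.p (e - t)).1, (K.p (e - t)).2⟩) (P c.Q.vac : D)
    simp only [EP.SGx.U0, Sg.mul, Grp.sim_zero, ← K.ms, add_sub_cancel] at this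
    rw [show (fun m => sim 1 (L t) 0 (L (e - t) m)) = _ from (K.mL _ _).symm, add_sub_cancel,
      ContinuousLinearMap.mul_apply, ← ContinuousLinearMap.adjoint_inner_left,
      Grp.coe (K.p _).1 (K.p _).2] at this
    exact this.symm
  have := is_const_of_deriv_eq_zero (fun t => (key t).differentiableAt) (fun t => (key t).deriv) t 0
  rwa [K.s0, K.L0, Grp.ug_one] at this

/-- **the vacua are invariant** -/
theorem ivac {T : Ix → Ix → Fld D} (hc : Cd c.Q) (h : Cn c)
    (hT : ∀ m n, c.Q.bose (T m n)) (hP : ND.PCh c.Q T c.A)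
    (hV : Wo c Real.exp fun _ => GF.one) : IVac c.Q := by
  intro z i s L hs hL
  have o := H496.isLor_one
  replace i : Iv c.Q z := fun a => (Ug_apply _ one_pos o a z).trans (i a)
  have mu : ∀ s L M, 0 < s → IsLor L → IsLor M → (∀ v, inner ℂ z (Ug c.Q s L 0 v) = inner ℂ z v) →
      (∀ v, inner ℂ z (Ug c.Q 1 M 0 v) = inner ℂ z v) →
      ∀ v, inner ℂ z (Ug c.Q s (P352Y.mulL L M) 0 v) = inner ℂ z v := fun s L M a b d p q v => by
    have := h.ev i (EP.SGx.mul0 c ⟨s, L, 0, a, b⟩ ⟨1, M, 0, one_pos, d⟩) v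
    simp only [EP.SGx.U0, Sg.mul, Grp.sim_zero, mul_one] at this
    exact this.symm.trans ((p _).trans (q _))
  have K : Fl Real.exp (fun _ => GF.one) id := ⟨Real.exp_zero, rfl, fun t => ⟨Real.exp_pos t, o⟩,
    fun n x => by simpa [Fss.sim_dil] using (Real.hasDerivAt_exp 0).mul_const (x n), Real.exp_add,
    fun _ _ => (P352Y.mulL_one _).symm⟩
  have := mu s _ L hs o hL (Real.exp_log hs ▸ K.inv h hV i (Real.log s)) (P352Y.lor_gen
      (P := fun M => ∀ v, inner ℂ z (Ug c.Q 1 M 0 v) = inner ℂ z v)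
      (fun L M => mu 1 L M one_pos) (fun a b t ab => ?_) L hL)
  · rw [P352Y.one_mulL] at this
    rw [← Ug_apply _ hs hL]
    refine ext_inner_right ℂ fun v => ?_
    rw [← ContinuousLinearMap.adjoint_inner_right, ← ContinuousLinearMap.star_eq_adjoint, ← this,
      show Ug c.Q s L 0 (star (Ug c.Q s L 0) v) = v from DFunLike.congr_fun (uni c hs hL 0).2 v]
  have hX : IsSim 0 fun x n => ∑ m, x m * P352Y.XX a b m n := ⟨0, P352Y.XX a b, fun m n => by
    simp only [P352Y.XX, P352Y.Mx]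
    ring, fun _ _ => by simp⟩
  have K : Fl (fun _ => 1) (P352Y.gg a b) fun x n => ∑ m, x m * P352Y.XX a b m n := ⟨rfl, P352Y.gg_zero a b,
    fun t => ⟨one_pos, P352Y.lor_gg ab t⟩, fun n x => by
      simp only [sim, Pi.zero_apply, zero_add, one_mul]
      exact HasDerivAt.fun_sum fun m _ => (hasDerivAt_pi.1 (hasDerivAt_pi.1
        (P352Y.gg_der a b) m) n).const_mul _, fun _ _ => (mul_one _).symm,
    fun _ _ => (P352Y.gg_add ab _ _).symm⟩
  exact K.inv h (K.wo hc (fw (hT GF.o) 1 (fun n g hg => Fss.test_sim0 hX hg n) (K.gen c) isCutoff_cutF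
    fun B f v w a b d => by
      simp only [Pi.one_apply, one_smul]
      exact hP _ _ B f v w isCutoff_cutF hX a b d)) i t

end

end Vale.Agent.N352.U.Vp
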